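import Vale.Agent.P014X.Cm.Br
import Vale.Agent.P014U.X4M.TE.Red

/-! # P014X, row CF: the clauses which come from the main theorem of complex multiplication -/

set_option autoImplicit false
set_option linter.all false

open NumberField QuadraticAlgebra
open scoped Classical

noncomputable section

namespace Vale.Agent.P014X.Cf2

open Vale.Agent.P022 P027H P004K P004K.Rc Cs Bg
open Vale.Agent.P027M.S (Inert)
open Vale.Agent.P022E.GW (Ov Fb)
open P004M.TE (Pt ga Cv)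

variable {A B : ℤ} (D : Cd A B)

theorem zero_of {l : ℕ} (hl : l.Prime) {x : D.O} (h : ∀ n : ℕ, ¬ l ∣ n → (n : D.O) ∣ x) : x = 0 := by
  have k : ∀ a : ℤ, (∀ n : ℕ, ¬ l ∣ n → (n : ℤ) ∣ a) → a = 0 := fun a h =>
    Int.eq_zero_of_dvd_of_natAbs_lt_natAbs (h (l * a.natAbs + 1) fun d =>
      hl.one_lt.ne' (Nat.dvd_one.1 ((Nat.dvd_add_right (dvd_mul_right _ _)).1 d))) (by
        rw [Int.natAbs_natCast]
        exact Nat.lt_succ_of_le (Nat.le_mul_of_pos_left _ hl.pos))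
  refine QuadraticAlgebra.ext (k _ fun n d => ?_) (k _ fun n d => ?_) <;>
    obtain ⟨y, rfl⟩ := h n d <;> simp

theorem am (x y : D.O) (T : Pt A B) : D.act (x * y) T = D.act x (D.act y T) := by
  rw [map_mul]
  rfl

theorem ex_ov {P : Ideal (𝓞 Qb)} (hP : P.IsPrime) {n : ℕ} (n0 : n ≠ 0) (h : (n : 𝓞 Qb) ∈ P) :
    ∃ l, Ov l P := by
  induction n using induction_on_primes with
  | zero => exact absurd rfl n0
  | one => exact absurd ((Ideal.eq_top_iff_one _).2 (by simpa using h)) hP.ne_top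
  | prime_mul p a hp ih =>
    rw [Nat.cast_mul] at h
    exact (hP.mem_or_mem h).elim (fun k => ⟨p, hp, hP, k⟩) (ih (right_ne_zero_of_mul n0))

theorem mt : ∀ π P k g, D.Fr π P k g →
    ∃ ζ, IsUnit ζ ∧ ∀ m ≠ 0, IsCoprime m π → D.Ac m g (ζ * π ^ k) := by
  intro π P k g f
  obtain ⟨K, _, _, j, e, s, ex, b⟩ := ex_br D
  have e1 := b.bl f.pr f.pP f.mem
  have hg := b.G ▸ f.G
  obtain ⟨π', e2, h⟩ := frob b.dt.uf b.dt.ac b.dt.iq b.dt.kl hg f.pP
    (by simpa [e1] using f.pr.ne_zero) k (by rw [e1, b.nm]; exact f.eq)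
  rw [e1, Ideal.span_singleton_pow] at e2
  obtain ⟨u, rfl⟩ := (Ideal.span_singleton_eq_span_singleton.1 e2).symm
  refine ⟨e.symm u, u.isUnit.map _, fun m m0 c => (b.ac m0).2 ⟨hg, ?_⟩⟩
  rw [map_mul, map_pow, e.apply_symm_apply, mul_comm]
  refine h _ fun d => f.pr.not_unit (c.isUnit_of_dvd' ?_ dvd_rfl)
  rwa [e1, Ideal.mem_span_singleton, map_dvd_iff] at d

theorem fr : ∀ π, Prime π → ∀ P, P.IsPrime → D.j π ∈ P → ∃ g, D.Fr π P 1 g := by
  intro π p P hP h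
  obtain ⟨K, _, _, j, e, s, ex, b⟩ := ex_br D
  have e1 := b.bl p hP h
  obtain ⟨l, o⟩ := ex_ov hP (n := Ideal.absNorm (below j P))
    (by simpa [e1, Ideal.absNorm_eq_zero_iff] using p.ne_zero)
    (by simpa [below] using Ideal.absNorm_mem (below j P))
  obtain ⟨g, k⟩ := H20.exists_frob j hP o.1 o.2.2
  exact ⟨g, p, hP, h, b.G.ge g.2, by rwa [pow_one, ← b.nm, ← e1]⟩

section

variable {D} {K : Type} [Field K] [NumberField K] {j : K →+* Qb} {e : D.O ≃+* 𝓞 K}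
  {s : 𝓞 K →+* 𝓞 K} {ex : ℂ →+ (Cv ℂ (A : ℚ) (B : ℚ)).Point} {l : ℕ} {P : Ideal (𝓞 Qb)}

theorem bl_mem (o : Ov l P) : (l : 𝓞 K) ∈ below j P := by simpa [below] using o.2.2

theorem bel0 (b : Br D j e s ex) (o : Ov l P) :
    ∃ π, Prime π ∧ below j P = Ideal.span {e π} := by
  have := b.dt.pid
  obtain ⟨x, k⟩ := (IsPrincipalIdealRing.principal (below j P)).principal
  obtain ⟨π, rfl⟩ := e.surjective x
  rw [Ideal.submodule_span_eq] at k
  refine ⟨π, (MulEquiv.prime_iff e).1 ((Ideal.span_singleton_prime fun c => o.1.ne_zero ?_).1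
    (k ▸ o.2.1.comap _)), k⟩
  simpa [k, c] using bl_mem (j := j) o

theorem cj (b : Br D j e s ex) {g : GQ} (hg : g ∉ GK j) (x : D.O) : g • D.j x = D.j (star x) := by
  rw [← b.ej, ← b.ej, b.st]
  exact RingOfIntegers.ext (cj_of b.dt.iq b.dt.qd hg _)

end

theorem bel : ∀ l P, Ov l P → ∃ π, Prime π ∧ D.j π ∈ P ∧ π ∣ l := by
  intro l P o
  obtain ⟨K, _, _, j, e, s, ex, b⟩ := ex_br D
  obtain ⟨π, p, k⟩ := bel0 b o
  have m := bl_mem (j := j) o
  rw [k, Ideal.mem_span_singleton, ← map_natCast e, map_dvd_iff] at m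
  exact ⟨π, p, b.mem.1 (k ▸ Ideal.mem_span_singleton_self _), m⟩

theorem onto : ∀ m ≠ 0, ∀ β, IsCoprime β m → ∃ g ζ, IsUnit ζ ∧ D.Ac m g (ζ * β) := by
  intro m m0 β c
  obtain ⟨K, _, _, j, e, s, ex, b⟩ := ex_br D
  obtain ⟨g, hg, u, hu, k⟩ := b.dt.rh_onto (c.map e.toRingHom)
  exact ⟨g, e.symm u, hu.map _, (b.ac m0).2 ⟨hg, by rwa [map_mul, e.apply_symm_apply]⟩⟩

theorem good : ∀ l P i, Ov l P → ¬ (l : ℤ) ∣ 6 * (4 * A ^ 3 + 27 * B ^ 2) → Inert P i →
    ∀ m ≠ 0, D.j m ∉ P → i ∈ D.Hf m := by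
  intro l P i o hl hi m m0 hm
  obtain ⟨K, _, _, j, e, s, ex, b⟩ := ex_br D
  have := Fact.mk o.1
  obtain ⟨κ, _, _, _, rd, h1, h2, -⟩ := P014U.X4M.TE.exists_rdn (A := A) (B := B)
    (fun c => hl (c.trans ⟨3, by ring⟩)) o.2.1 o.2.2
  have n0 : ∀ n : ℕ, ¬ l ∣ n → (n : D.O) ≠ 0 := fun n d =>
    Nat.cast_ne_zero.2 fun c => d (c ▸ dvd_zero l)
  have fx : ∀ n : ℕ, ¬ l ∣ n → ∀ y, D.act n y = 0 → ga i y = y := fun n d y c => by
    rw [map_natCast] at c
    exact sub_eq_zero.1 (h1 n _ d (by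
      rw [nsmul_sub, ← map_nsmul, show n • y = 0 from c, map_zero, sub_self])
      (by rw [map_sub, h2 i hi, sub_self]))
  have t0 : ∀ n : ℕ, ¬ l ∣ n → D.act n (D.tp n) = 0 := fun n d =>
    ((b.tp (n0 n d)).1 n).2 dvd_rfl
  have hg : i ∈ D.G := b.G ▸ by_contra fun c => two_ne_zero (α := ℤ) (by
    have := zero_of D o.1 (x := ω - star ω) fun n d => ((b.tp (n0 n d)).1 _).1 (by
      have k := b.dt.sem c (e ω) (D.tp n)
      rw [← b.st, Br.act, Br.act, fx n d _ (t0 n d), fx n d _ (by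
        rw [← am, mul_comm, am, t0 n d, map_zero])] at k
      rw [map_sub]
      exact sub_eq_zero.2 k)
    simpa using congrArg QuadraticAlgebra.im this)
  obtain ⟨π, p, hπ, d⟩ := bel D l P o
  obtain ⟨ζ, -, k⟩ := mt D π P 0 i ⟨p, o.2.1, hπ, hg, fun x => by simpa using hi x⟩
  have := dom D
  have := D.pid
  have co : ∀ x, D.j x ∉ P → IsCoprime x π := fun x c =>
    (p.irreducible.coprime_iff_not_dvd.2 fun ⟨y, a⟩ => c (by
      rw [a, map_mul]
      exact P.mul_mem_right _ hπ)).symm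
  obtain rfl : ζ = 1 := sub_eq_zero.1 (zero_of D o.1 fun n d => ((b.tp (n0 n d)).1 _).1 (by
    have := (k n (n0 n d) (co n fun c => o.2.1.ne_top ((Ideal.eq_top_iff_one _).2 ?_))).2
    · rw [fx n d _ (t0 n d), pow_zero, mul_one] at this
      rw [map_sub, map_one]
      exact sub_eq_zero.2 this.symm
    obtain ⟨u, v, a⟩ := Nat.isCoprime_iff_coprime.2 (o.1.coprime_iff_not_dvd.2 d)
    have a' := congrArg (Int.cast : ℤ → 𝓞 Qb) a
    rw [map_natCast] at c
    push_cast at a'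
    exact a' ▸ add_mem (P.mul_mem_left _ o.2.2) (P.mul_mem_left _ c)))
  have := (k m m0 (co m hm)).2
  rw [pow_zero, mul_one, map_one] at this
  exact ⟨hg, this⟩

theorem spl : ∀ l P φ, Ov l P → ¬ (l : ℤ) ∣ D.b ^ 2 + 4 * D.a → Fb l P φ →
    (∀ i, Inert P i → i ∈ D.G) ∧
    (φ ∈ D.G → ∃ π : D.O, π * star π = l ∧ D.j (star π) ∉ P ∧ D.Fr π P 1 φ) ∧
    (φ ∉ D.G → D.Fr l P 1 (φ * φ)) := by
  intro l P φ o hl f
  obtain ⟨K, _, _, j, e, s, ex, b⟩ := ex_br D
  have q := b.dt.qd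
  have iq := b.dt.iq
  have bp : (below j P).IsPrime := o.2.1.comap _
  have gd : D.j (star ω - ω) ∉ P := fun c => o.2.1.ne_top ((Ideal.eq_top_iff_one _).2 (by
    obtain ⟨u, v, a⟩ := (Nat.prime_iff_prime_int.1 o.1).irreducible.coprime_iff_not_dvd.2 hl
    have a' := congrArg (Int.cast : ℤ → 𝓞 Qb) a
    have c' := P.pow_mem_of_mem c 2 two_pos
    rw [← map_pow, show (star ω - ω : D.O) ^ 2 = (D.b ^ 2 + 4 * D.a : ℤ) by
      rw [st_om]
      push_cast
      linear_combination 4 * om D, map_intCast] at c'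
    rw [Int.cast_add, Int.cast_mul, Int.cast_mul, Int.cast_natCast, Int.cast_one] at a'
    exact a' ▸ add_mem (P.mul_mem_left _ o.2.2) (P.mul_mem_left _ c')))
  rw [b.G]
  refine ⟨fun i hi => by_contra fun c => gd ?_, fun hg => ?_, fun hg => ?_⟩
  · have := hi (D.j ω)
    rwa [cj b c, ← map_sub] at this
  · have w1 : e ω ^ l - e ω ∈ below j P := by
      have := neg_mem (f (D.j ω))
      rwa [(D.mem φ).1 (b.G ▸ hg), neg_sub, ← map_pow, ← map_sub, ← b.mem, map_sub, map_pow] at this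
    obtain ⟨a1, a2, -⟩ := (dich iq q o.1 bp (bl_mem o)).resolve_right fun c => c.2.2 w1
    obtain ⟨π, p, k⟩ := bel0 b o
    refine ⟨π, e.injective ?_, fun c => gd ?_, p, o.2.1,
      b.mem.1 (k ▸ Ideal.mem_span_singleton_self _), b.G ▸ hg, by rwa [← b.nm, ← k, a1, pow_one]⟩
    · rw [map_mul, b.st, map_natCast]
      exact nm_eq q o.1 ((MulEquiv.prime_iff e).2 p) (Ideal.mem_span_singleton.1 (k ▸ bl_mem o))
        (k ▸ a2)
    · obtain ⟨n, w2⟩ := int_of_pow o.1 bp (bl_mem o) w1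
      obtain ⟨x, w3⟩ := Ideal.mem_span_singleton.1 (k ▸ w2)
      have w4 := congrArg s w3
      rw [map_sub, map_intCast, map_mul, ← b.st, ← b.st] at w4
      have := sub_mem ((below j P).mul_mem_right (s x) (b.mem.2 c)) w2
      rwa [← w4, sub_sub_sub_cancel_right, ← map_sub, b.mem] at this
  · obtain ⟨a1, a2, -⟩ := (dich iq q o.1 bp (bl_mem o)).resolve_left fun c => gd (by
      have := f (D.j ω)
      rw [cj b hg, ← map_pow, ← map_sub, ← b.mem, map_sub, map_pow] at this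
      rw [← b.mem, map_sub]
      simpa using add_mem this (c.2.2 (e ω)))
    rw [← map_natCast e] at a2
    refine ⟨(MulEquiv.prime_iff e).1 ((Ideal.span_singleton_prime
      (by simpa using o.1.ne_zero)).1 (a2 ▸ bp)), o.2.1, by simpa using o.2.2, b.G ▸ (by
        simpa using H916.mul_inv_mem j iq.two hg (Function.mt (inv_mem_iff (x := φ)).1 hg)),
      fun x => ?_⟩
    have := add_mem (f (φ • x)) (Ideal.mem_of_dvd _ (sub_dvd_pow_sub_pow _ _ l) (f x))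
    rwa [sub_add_sub_cancel, ← mul_smul, ← pow_mul, ← sq l, ← a1, a2, b.nm,
      ← pow_one (D.nm _)] at this

end Vale.Agent.P014X.Cf2
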