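import Vale.Agent.P014X.Cm.Cf1
import Vale.Agent.P014X.Cm.Cf2

/-! # P014X, row CF -/

set_option autoImplicit false

namespace Vale.Agent.P014X

open Cf0 Cf2

/-- **row CF** -/
theorem cf : CF := fun _ _ D =>
  ⟨nrm D, opn D, cG D, c2 D, fix D, Cf0.cj D, lin D, sem D, un D, eu D, ker D, gen D, tr D, crd D,
    dv D, ctp D, ac D, hm D, oH D, det D, Cf2.mt D, fr D, bel D, onto D, good D, spl D⟩

end Vale.Agent.P014X
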