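import Vale.Agent.P014X.Cm.Brg
import Vale.Agent.P022.H567.Rec
import Vale.Agent.P022.H651.FCH
import Vale.Agent.P022.H565.Fre
import Vale.Agent.P022.H269.Nrm
import Vale.Agent.P022K.Cheb.Main
import Vale.Agent.P004R.Gl

/-! # P014X: class field theory for the torsion points (row CG) -/

set_option autoImplicit false
set_option linter.all false

open NumberField QuadraticAlgebra IsDedekindDomain
open scoped Classical

noncomputable section

namespace Vale.Agent.P014X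

open Vale.Agent.P022 (Qb GQ GK below)
open Vale.Agent.P027M.S (Inert)
open Vale.Agent.P022E.GW (Ov Fb)
open P027H P027M.M
open P004M.TE (Pt ga ga_mul ga_one)

namespace Cd.Cf

variable {A B : ℤ} {D : Cd A B} (h : D.Cf) {m m' β γ : D.O} {g g' : GQ} {n : ℕ}

theorem act_mul (x y : D.O) (T : Pt A B) : D.act (x * y) T = D.act x (D.act y T) := by
  rw [map_mul]; rfl

theorem hf_iff : g ∈ D.Hf m ↔ D.Ac m g 1 := by
  rw [Ac, map_one]; rfl

include h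

theorem ac_mul (a : D.Ac m g β) (b : D.Ac m g' γ) : D.Ac m (g * g') (β * γ) :=
  ⟨mul_mem a.1 b.1, by rw [ga_mul, b.2, h.lin g a.1, a.2, ← act_mul, mul_comm]⟩

theorem ac_iff (m0 : m ≠ 0) (a : D.Ac m g β) : D.Ac m g γ ↔ m ∣ β - γ := by
  rw [← h.ker m m0, map_sub, Ac, a.2, and_iff_right a.1, ← sub_eq_zero]; rfl

theorem ac_dvd (m0 : m' ≠ 0) (d : m ∣ m') (a : D.Ac m' g β) : D.Ac m g β := by
  obtain ⟨k, rfl⟩ := d
  refine ⟨a.1, ?_⟩
  rw [← h.dv m (left_ne_zero_of_mul m0) k (right_ne_zero_of_mul m0), h.lin g a.1, a.2, ← act_mul,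
    ← act_mul, mul_comm]

theorem hf_mono (m0 : m' ≠ 0) (d : m ∣ m') : D.Hf m' ≤ D.Hf m := fun _ a =>
  hf_iff.2 (h.ac_dvd m0 d (hf_iff.1 a))

theorem hf_le (m0 : m ≠ 0) : D.Hf m ≤ D.Hm m := fun g a =>
  (h.hm m m0 g).2 ⟨1, isUnit_one, hf_iff.1 a⟩

theorem ac_of (a : D.Ac m g' β) (b : g⁻¹ * g' ∈ D.Hf m) : D.Ac m g β := by
  simpa using h.ac_mul a (hf_iff.1 (inv_mem b))

omit h in
theorem nc (n0 : n ≠ 0) : (n : D.O) ≠ 0 := have := D.chz; Nat.cast_ne_zero.2 n0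

theorem ex_act (n0 : n ≠ 0) (σ : GQ) : ∃ u, ga σ (D.tp n) = D.act u (D.tp n) := by
  refine (h.gen _ (nc n0) _).1 ((h.tr _ (nc n0) _).2 ?_)
  have k := (h.ker _ (nc n0) n).2 dvd_rfl
  rw [map_natCast] at k ⊢
  have e : ∀ T : Pt A B, (n : AddMonoid.End (Pt A B)) T = n • T := fun T => rfl
  rw [e] at k ⊢
  rw [← map_nsmul, k, map_zero]

theorem hf_normal (n0 : n ≠ 0) : (D.Hf n).Normal := ⟨fun g a σ => by
  obtain ⟨u, e⟩ := h.ex_act n0 σ⁻¹
  refine ⟨h.nrm.conj_mem g a.1 σ, ?_⟩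
  show ga _ _ = _
  rw [ga_mul, ga_mul, e, h.lin g a.1, show ga g _ = _ from a.2, ← e, ← ga_mul, mul_inv_cancel,
    ga_one]⟩

omit h in
theorem nm_eq (x : D.O) : (D.nm x : D.O) = x * star x ∧ (D.nm x : ℤ) = x.norm := by
  have p : 0 ≤ x.norm := by
    have := D.neg
    rw [norm_def]
    simp only [Int.cast_id]
    nlinarith [sq_nonneg (2 * x.re + D.b * x.im), sq_nonneg x.im]
  have e : (D.nm x : ℤ) = x.norm := Int.natAbs_of_nonneg p
  exact ⟨by rw [← algebraMap_norm_eq_mul_star, ← e]; simp, e⟩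

omit h in
theorem nm_ne (m0 : m ≠ 0) : D.nm m ≠ 0 := fun e => by
  have := D.dom
  have k := (nm_eq m).1
  rw [e, Nat.cast_zero] at k
  exact mul_ne_zero m0 (star_ne_zero.2 m0) k.symm

omit h in
theorem dvd_nm (m : D.O) : m ∣ D.nm m := ⟨_, (nm_eq m).1⟩

omit h in
theorem nm_unit (u : IsUnit β) : β.norm = 1 := by
  have := (nm_eq β).2
  rcases Int.isUnit_iff.1 (isUnit_iff_norm_isUnit.1 u) with e | e
  · exact e
  · omega

omit h in
theorem sep6 (u : IsUnit β) (d : (6 : D.O) ∣ β - 1) : β = 1 := by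
  obtain ⟨x, e⟩ := d
  rw [sub_eq_iff_eq_add] at e
  have a := nm_unit u
  have b := (nm_eq (β + 1)).2
  have c := (nm_eq x).2
  have n := D.neg
  have z : D.nm x = 0 := by
    rw [e] at a b
    simp only [norm_def, Int.cast_id, re_add, im_add, re_mul, im_mul, re_ofNat, im_ofNat, re_one,
      im_one] at a b c
    have : (D.nm x : ℤ) < 1 := by nlinarith
    omega
  by_contra k
  refine nm_ne (m := x) ?_ z
  rintro rfl
  exact k (by rw [e]; simp)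

/-- Chebotarev -/
theorem cheb (n0 : n ≠ 0) (a : g ∈ D.G) : ∃ π P φ ζ, D.Fr π P 1 φ ∧ g⁻¹ * φ ∈ D.Hf n ∧ IsUnit ζ ∧
    D.Ac n φ (ζ * π) := by
  have d0 : (D.b ^ 2 + 4 * D.a).natAbs ≠ 0 := by have := D.neg; omega
  obtain ⟨l, φ, l1, l2, ⟨P, p1, p2, p3⟩, k⟩ := P022K.Cheb.cheb _ (h.hf_normal n0) (h.oH _ (nc n0)) g
    (n * (D.b ^ 2 + 4 * D.a).natAbs).primeFactors
  rw [Nat.mem_primeFactors_of_ne_zero (mul_ne_zero n0 d0), and_iff_right l1] at l2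
  obtain ⟨π, e, -, f⟩ := (h.spl l P φ ⟨l1, p1, p2⟩
    (fun d => l2 ((Int.natCast_dvd.1 d).mul_left _)) p3).2.1 (by simpa using mul_mem a k.1)
  obtain ⟨ζ, u, t⟩ := h.mt π P 1 φ f
  rw [pow_one] at t
  refine ⟨π, P, φ, ζ, f, k, u, t _ (nc n0) (IsCoprime.of_mul_right_left (z := star π) ?_)⟩
  rw [e]
  exact Nat.Coprime.cast ((Nat.coprime_comm.1 ((l1.coprime_iff_not_dvd).2 fun d => l2 (d.mul_right _))))

/-- the conclusion of the reciprocity law -/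
def Rl {M : Type} [Monoid M] (χ : D.G →* M) (k : ℕ) : Prop := k ≠ 0 ∧
  (∀ l : ℕ, l.Prime → l ∣ k → ∃ P, Ov l P ∧ ∃ i : D.G, Inert P i ∧ χ i ≠ 1) ∧
  ∀ π P (φ : D.G) u, D.Fr π P 1 φ → IsUnit u → (k : D.O) ∣ u * π - 1 → χ φ = 1

theorem rec0 (m0 : m ≠ 0) (n0 : 0 < n) (θ : D.G →* Multiplicative (ZMod n))
    (t : ∀ g : D.G, g.1 ∈ D.Hf m → θ g = 1) : ∃ k, Rl θ k := by
  obtain ⟨K, _, _, j, e, b⟩ := D.brg
  let θ' := θ.comp (Subgroup.inclusion b.G.le)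
  have o : IsOpen {g : GK j | θ' g = 1} :=
    Subgroup.isOpen_mono (H₁ := (D.Hf m).subgroupOf (GK j)) (H₂ := θ'.ker) (fun g a => t _ a)
      ((h.oH m m0).preimage continuous_subtype_val)
  obtain ⟨k, k0, k1, k2, k3⟩ := P022.H651.FCH P022.C.REC K j n n0 θ' o
  obtain ⟨f1, f2, -⟩ := P022.H565.FRE K j
  choose Q F hF using f1
  refine ⟨k, k0, fun l l1 l2 => ?_, fun π P φ u r u1 d => ?_⟩
  · obtain ⟨P, p1, p2, i, i1, i2⟩ := k1 l l1 l2
    exact ⟨P, ⟨l1, p1, p2⟩, ⟨i, b.G.le i.2⟩, i1, i2⟩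
  have := b.iq.im
  have := D.dom
  have p : Prime (e π) := (MulEquiv.prime_iff e).2 r.pr
  let v : HeightOneSpectrum (𝓞 K) := ⟨Ideal.span {e π}, (Ideal.span_singleton_prime p.ne_zero).2 p,
    fun z => p.ne_zero (Ideal.span_singleton_eq_bot.1 z)⟩
  have un : ∀ w : HeightOneSpectrum (𝓞 K), (k : 𝓞 K) ∉ w.asIdeal → ∀ P : Ideal (𝓞 Qb), P.IsPrime →
      below j P = w.asIdeal → ∀ g : GK j, P022.C.InI j P g → θ' g = 1 := fun w hw P p1 p2 =>
    k2 P p1 (fun z => w.ne_bot (by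
      rw [← p2, z]
      exact Ideal.comap_bot_of_injective _ fun x y z => RingOfIntegers.ext
        (j.injective (congrArg (fun x : 𝓞 Qb => (x : Qb)) z))))
      (fun z => hw (p2 ▸ P022.H651.natCast_mem_below j |>.2 z))
  have d' : (k : 𝓞 K) ∣ e (u * π) - 1 := by simpa using map_dvd e d
  have s : Ideal.span {e (u * π)} = v.asIdeal := by
    rw [map_mul]
    exact Ideal.span_singleton_mul_left_unit (u1.map e) _
  have a0 : e (u * π) ≠ 0 := fun z => v.ne_bot (by rw [← s, z]; simp)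
  have m1 : e (u * π) ∈ v.asIdeal := s ▸ Ideal.mem_span_singleton_self _
  have kv : (k : 𝓞 K) ∉ v.asIdeal := fun z => v.isPrime.ne_top ((Ideal.eq_top_iff_one _).2 (by
    simpa using sub_mem m1 (v.asIdeal.mem_of_dvd d' z)))
  have c := k3 (fun w => Multiplicative.toAdd (θ' (F w)))
    (fun w P g hw r => congrArg _ (f2 _ θ' w (un w hw) _ _ _ _ r (hF w))) 0
    (fun φ => isEmptyElim φ) (e (u * π)) a0 d'
  rw [finsum_eq_single _ v fun w hw => by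
      rw [P022.H48.ordv_of_notMem _ w fun z => hw (HeightOneSpectrum.ext (v.isMaximal.eq_of_le
        w.isPrime.ne_top (by rw [← s]; exact (Ideal.span_singleton_le_iff_mem _).2 z)).symm),
        zero_smul],
    P022.H269.ordv_eq_one v m1 fun z => by
      rw [← s, ← Ideal.span_singleton_le_iff_mem, ← Ideal.dvd_iff_le, sq, s] at z
      exact v.isPrime.ne_top (Ideal.isUnit_iff.1 (isUnit_of_dvd_one
        ((mul_dvd_mul_iff_left v.ne_bot).1 (by simpa using z))))] at c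
  have f : P022.C.FrI j v P ⟨φ, b.G.ge φ.2⟩ := ⟨r.pP, (v.isMaximal.eq_of_le
    (Ideal.comap_ne_top _ r.pP.ne_top) ((Ideal.span_singleton_le_iff_mem _).2
      (show RingOfIntegers.mapRingHom j _ ∈ P from b.je π ▸ r.mem))).symm,
    fun x => by simpa only [v, b.nm, pow_one] using r.eq x⟩
  exact (f2 _ θ' v (un v kv) _ _ _ _ f (hF v)).trans (by simpa using c)

/-- **the reciprocity law** -/
theorem rec1 (m0 : m ≠ 0) {M : Type} [CommMonoid M] (χ : D.G →* M)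
    (t : ∀ g : D.G, g.1 ∈ D.Hf m → χ g = 1) : ∃ k, Rl χ k := by
  have : (D.Hf m).FiniteIndex := @Subgroup.finiteIndex_of_finite_quotient _ _ _
    ((D.Hf m).quotient_finite_of_isOpen (h.oH m m0))
  have : χ.toHomUnits.ker.FiniteIndex := Subgroup.finiteIndex_of_le
    (H := (D.Hf m).subgroupOf D.G) fun g a => Units.ext (t g a)
  have : Finite χ.toHomUnits.range := Nat.finite_of_card_ne_zero
    (Subgroup.index_ker χ.toHomUnits ▸ Subgroup.FiniteIndex.index_ne_zero)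
  obtain ⟨ι, _, n, n1, ⟨e⟩⟩ := CommGroup.equiv_prod_multiplicative_zmod_of_finite χ.toHomUnits.range
  let θ := fun i => (Pi.evalMonoidHom _ i).comp (e.toMonoidHom.comp χ.toHomUnits.rangeRestrict)
  have q : ∀ g, χ g = 1 ↔ ∀ i, θ i g = 1 := fun g =>
    (show _ ↔ χ.toHomUnits.rangeRestrict g = 1 by rw [Subtype.ext_iff, Units.ext_iff]; rfl).trans
      (e.map_eq_one_iff.symm.trans funext_iff)
  choose k hk using fun i => h.rec0 m0 (zero_lt_one.trans (n1 i)) (θ i) fun g a => (q g).1 (t g a) i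
  refine ⟨∏ i, k i, Finset.prod_ne_zero_iff.2 fun i _ => (hk i).1, fun l l1 l2 => ?_,
    fun π P φ u r u1 d => (q φ).2 fun i => (hk i).2.2 π P φ u r u1
      ((Nat.cast_dvd_cast (Finset.dvd_prod_of_mem k (Finset.mem_univ i))).trans d)⟩
  obtain ⟨i, -, d⟩ := (Prime.dvd_finsetProd_iff l1.prime _).1 l2
  obtain ⟨P, o, x, x1, x2⟩ := (hk i).2.1 l l1 d
  exact ⟨P, o, x, x1, fun z => x2 ((q x).1 z i)⟩

omit h in
theorem inv_dvd {ζ ζ' π : D.O} (u : IsUnit ζ) (u' : IsUnit ζ') (d : m ∣ ζ - ζ' * π) :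
    ∃ w, IsUnit w ∧ m ∣ w * π - 1 := by
  obtain ⟨z, rfl⟩ := u
  refine ⟨z⁻¹.1 * ζ', z⁻¹.isUnit.mul u', ?_⟩
  have := (d.mul_left z⁻¹.1).neg_right
  rwa [mul_sub, Units.inv_mul, neg_sub, ← mul_assoc] at this

theorem cond (M : Type) [CommMonoid M] (χ : D.G →* M) (m : ℕ) (T : Finset ℕ) (m0 : m ≠ 0)
    (t : ∀ g : D.G, g.1 ∈ D.Hm m → χ g = 1)
    (r : ∀ l P, ∀ i : D.G, Ov l P → l ∉ T → Inert P i → χ i = 1) :
    ∃ m' : ℕ, m' ≠ 0 ∧ m'.primeFactors ⊆ T ∧ ∀ g : D.G, g.1 ∈ D.Hm m' → χ g = 1 := by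
  have t' := fun (g : D.G) (a : g.1 ∈ D.Hf m) => t g (h.hf_le (nc m0) a)
  obtain ⟨k, k0, k1, k2⟩ := h.rec1 (nc m0) χ t'
  refine ⟨k, k0, fun l hl => ?_, fun g a => ?_⟩
  · obtain ⟨P, o, i, i1, i2⟩ := k1 l (Nat.prime_of_mem_primeFactors hl) (Nat.dvd_of_mem_primeFactors hl)
    exact not_not.1 fun z => i2 (r l P i o z i1)
  have n0 := mul_ne_zero m0 k0
  obtain ⟨ζ, u, c⟩ := (h.hm _ (nc k0) g).1 a
  obtain ⟨π, P, φ, ζ', f, s, u', c'⟩ := h.cheb n0 g.2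
  obtain ⟨w, w1, w2⟩ := inv_dvd u u' ((h.ac_iff (nc k0) c).1
    (h.ac_dvd (nc n0) (Nat.cast_dvd_cast (dvd_mul_left k m)) (h.ac_of c' s)))
  have x := k2 π P ⟨φ, f.G⟩ w f w1 w2
  have y := t' ⟨_, s.1⟩ (h.hf_mono (nc n0) (Nat.cast_dvd_cast (dvd_mul_right m k)) s)
  rw [← x, ← mul_one (χ g), ← y, ← map_mul]
  exact congrArg χ (Subtype.ext (mul_inv_cancel_left _ _))

omit h in
theorem notMem {l : ℕ} {P : Ideal (𝓞 Qb)} (o : Ov l P) (d : ¬ l ∣ n) : (n : 𝓞 Qb) ∉ P := fun z => by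
  obtain ⟨x, y, e⟩ : IsCoprime (l : 𝓞 Qb) n := Nat.Coprime.cast (o.1.coprime_iff_not_dvd.2 d)
  exact o.2.1.ne_top ((Ideal.eq_top_iff_one _).2
    (e ▸ add_mem (P.mul_mem_left _ o.2.2) (P.mul_mem_left _ z)))

theorem deep (n0 : n ≠ 0) (n6 : 6 ∣ n)
    (s : ∀ l : ℕ, l.Prime → (l : ℤ) ∣ 6 * (4 * A ^ 3 + 27 * B ^ 2) → l ∣ n) :
    ∃ k : ℕ, k ≠ 0 ∧ (∀ l : ℕ, l.Prime → l ∣ k → l ∣ n) ∧
      ∀ m ≠ 0, ((n * k : ℕ) : D.O) ∣ m → D.Hm m = D.Hf m := by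
  choose b b1 b2 using fun g : D.G => h.ac _ (nc n0) g g.2
  have e : ∀ g x, Ideal.Quotient.mk (Ideal.span {(n : D.O)}) (b g) = Ideal.Quotient.mk _ x ↔
      D.Ac n g x := fun g x => by
    rw [Ideal.Quotient.eq, Ideal.mem_span_singleton, h.ac_iff (nc n0) (b2 g)]
  let ψ : D.G →* D.O ⧸ Ideal.span {(n : D.O)} :=
    { toFun := fun g => Ideal.Quotient.mk _ (b g)
      map_one' := (e 1 1).2 (hf_iff.1 (one_mem _))
      map_mul' := fun g g' => (e _ _).2 (h.ac_mul (b2 g) (b2 g')) }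
  have t : ∀ g : D.G, ψ g = 1 ↔ g.1 ∈ D.Hf n := fun g => (e g 1).trans hf_iff.symm
  obtain ⟨k, k0, k1, k2⟩ := h.rec1 (nc n0) ψ fun g => (t g).2
  refine ⟨k, k0, fun l l1 l2 => not_not.1 fun z => ?_, fun m m0 d => le_antisymm (fun g a => ?_)
    (h.hf_le m0)⟩
  · obtain ⟨P, o, i, i1, i2⟩ := k1 l l1 l2
    exact i2 ((t i).2 (h.good l P i o (fun y => z (s l l1 y)) i1 _ (nc n0)
      (by rw [map_natCast]; exact notMem o z)))
  obtain ⟨ζ, u, c⟩ := (h.hm _ m0 g).1 a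
  obtain ⟨π, P, φ, ζ', f, r, u', c'⟩ := h.cheb (nm_ne m0) c.1
  have d1 := (h.ac_iff m0 c).1 (h.ac_dvd (nc (nm_ne m0)) (dvd_nm m) (h.ac_of c' r))
  have d2 : (n : D.O) ∣ m := (Nat.cast_dvd_cast (dvd_mul_right n k)).trans d
  obtain ⟨w, w1, w2⟩ := inv_dvd u u' d1
  have x := (t _).1 (k2 π P ⟨φ, f.G⟩ w f w1
    (((Nat.cast_dvd_cast (dvd_mul_left k n)).trans d).trans w2))
  have y := (h.ac_iff (nc n0) (h.ac_dvd (nc (nm_ne m0)) (d2.trans (dvd_nm m)) c')).1 (hf_iff.1 x)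
  have z := dvd_add (d2.trans d1) y
  rw [sub_add_sub_cancel] at z
  obtain rfl := sep6 u ((by exact_mod_cast Nat.cast_dvd_cast (α := D.O) n6 : (6 : D.O) ∣ n).trans z)
  exact hf_iff.2 c

omit h in
theorem disc {K : Type} [Field K] [NumberField K] (e : D.O ≃+* 𝓞 K) :
    discr K = D.b ^ 2 + 4 * D.a := by
  have t : ∀ x : D.O, Algebra.trace ℤ D.O x = 2 * x.re + D.b * x.im := fun x => by
    rw [Algebra.trace_eq_matrix_trace (basis _ _), Matrix.trace_fin_two,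
      Algebra.leftMulMatrix_eq_repr_mul, Algebra.leftMulMatrix_eq_repr_mul]
    simp [basis, linearEquivTuple, equivProd]
    ring
  refine (discr_eq_discr K ((basis _ _).map e.toIntAlgEquiv.toLinearEquiv)).symm.trans
    ((Algebra.discr_eq_discr_of_algEquiv (basis _ _) e.toIntAlgEquiv).symm.trans ?_)
  rw [Algebra.discr_def, Matrix.det_fin_two]
  simp only [Algebra.traceMatrix_apply, Algebra.traceForm_apply]
  rw [t, t, t, t]
  simp [basis, linearEquivTuple, equivProd]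
  ring

theorem neg1 (l : ℕ) (P : Ideal (𝓞 Qb)) (o : Ov l P) (d : (l : ℤ) ∣ D.b ^ 2 + 4 * D.a) :
    ∃ i, Inert P i ∧ ∀ m ≠ 0, D.j m ∉ P → D.Ac m i (-1) := by
  obtain ⟨K, _, _, j, e, b⟩ := D.brg
  obtain ⟨i, i1, i2⟩ := P022.H916.exists_inertia j b.iq.two (disc e ▸ d) o.2.1 o.2.2
  rw [b.G] at i2
  have ic := (h.cG i).1 i2
  have ii : i * i ∈ D.G := by
    have := mul_mem ic (h.nrm.conj_mem _ ic D.c)
    rwa [mul_assoc D.c, mul_inv_cancel_right, mul_assoc, ← mul_assoc D.c, h.c2, one_mul] at this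
  refine ⟨i * i, fun x => ?_, fun m m0 p => ?_⟩
  · rw [mul_smul, ← sub_add_sub_cancel _ (i • x)]
    exact add_mem (i1 _) (i1 _)
  have n0 := nm_ne m0
  have np : (D.nm m : 𝓞 Qb) ∉ P := fun z => by
    rw [← map_natCast D.j, (nm_eq m).1, map_mul, ← h.cj i i2] at z
    exact p ((o.2.1.mem_or_mem z).elim id fun z => by simpa using sub_mem z (i1 (D.j m)))
  refine h.ac_dvd (nc n0) (dvd_nm m) ?_
  generalize D.nm m = n at n0 np
  obtain ⟨u, q⟩ := h.ex_act n0 i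
  have a : D.Ac n (i * i) (D.nm u) :=
    ⟨ii, by rw [ga_mul, q, h.sem i i2, q, ← act_mul, (nm_eq u).1, mul_comm]⟩
  have c : D.Ac n (i * D.c) (star D.η * u) :=
    ⟨ic, by rw [ga_mul, h.ctp _ (nc n0), star_natCast, h.sem i i2, q, ← act_mul]⟩
  have := NeZero.mk n0
  obtain ⟨z, z1⟩ := HasEnoughRootsOfUnity.exists_primitiveRoot Qb n
  have k := h.det n _ _ n0 c z z1.pow_eq_one
  have z0 := z1.ne_zero n0
  have k1 : D.c z = z⁻¹ := io_inj (by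
    rw [D.cc, map_inv₀, Complex.inv_eq_conj]
    exact Complex.norm_eq_one_of_pow_eq_one (by rw [← map_pow, z1.pow_eq_one, map_one]) n0)
  have k2 : i z = z := by
    let y : 𝓞 Qb := ⟨z, z1.isIntegral (Nat.pos_of_ne_zero n0)⟩
    have y1 : y ^ n = 1 := RingOfIntegers.ext z1.pow_eq_one
    exact congrArg (fun x : 𝓞 Qb => (x : Qb)) (P004R.Gl.root_eq o.2.1 np
      (by rw [← smul_pow', y1, smul_one]) y1 (i1 y))
  rw [AlgEquiv.mul_apply, k1, map_inv₀, k2, nm, map_mul, QuadraticAlgebra.norm_star, nm_unit h.eu, one_mul, ← nm,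
    eq_comm, ← mul_eq_one_iff_eq_inv₀ z0, ← pow_succ,
    z1.pow_eq_one_iff_dvd] at k
  refine (h.ac_iff (nc n0) a).2 ?_
  simpa using Nat.cast_dvd_cast (α := D.O) k

end Cd.Cf

open Cd.Cf in
/-- **CG** -/
theorem cg : CG := fun A B D h => by
  have n0 : (6 * (4 * A ^ 3 + 27 * B ^ 2)).natAbs ≠ 0 :=
    Int.natAbs_ne_zero.2 (mul_ne_zero (by norm_num) D.el)
  have n6 : 6 ∣ (6 * (4 * A ^ 3 + 27 * B ^ 2)).natAbs := Int.natCast_dvd.1 (dvd_mul_right _ _)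
  obtain ⟨k, k0, k1, k2⟩ := h.deep n0 n6 fun l _ d => Int.natCast_dvd.1 d
  refine ⟨_, mul_ne_zero n0 k0, fun l l1 => ?_, k2, fun ζ u d => sep6 u (Dvd.dvd.trans ?_ d),
    h.cond, h.neg1⟩
  · rw [Int.natCast_dvd, l1.dvd_mul]
    exact or_iff_left_of_imp (k1 l l1)
  · exact_mod_cast Nat.cast_dvd_cast (α := D.O) (n6.mul_right k)

end Vale.Agent.P014X
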