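import Vale.Agent.P014X.St0

/-! # P014X: the character of the curve (row EP, helper37) -/

set_option autoImplicit false
set_option linter.all false

open NumberField QuadraticAlgebra
open scoped Classical

noncomputable section

namespace Vale.Agent.P014X

open Vale.Agent.P022 (Qb GQ)
open Vale.Agent.P022E.GW (Ov Fb)
open P004M.TE (Pt ga al ga_mul ga_one)

namespace Ep

variable {A B : ℤ} {D : Cd A B} {m β γ ζ π : D.O} {g h : GQ} {l n N : ℕ} {P : Ideal (𝓞 Qb)}

/-! ### the order -/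

theorem dom : IsDomain D.O := D.inj.isDomain D.j

theorem four (x : D.O) : 4 * x.norm = (2 * x.re + D.b * x.im) ^ 2 - (D.b ^ 2 + 4 * D.a) * x.im ^ 2 := by
  rw [norm_def]; push_cast; ring

theorem nm_z (x : D.O) : (D.nm x : ℤ) = x.norm :=
  Int.natAbs_of_nonneg (by nlinarith [four x, D.neg, sq_nonneg x.im, sq_nonneg (2 * x.re + D.b * x.im)])

theorem nm_eq (x : D.O) : (D.nm x : D.O) = x * star x := by
  rw [← algebraMap_norm_eq_mul_star, ← nm_z]; rfl

theorem nm_mul (x y : D.O) : D.nm (x * y) = D.nm x * D.nm y := by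
  rw [Cd.nm, map_mul, Int.natAbs_mul]; rfl

theorem nm_of (h : π * star π = n) : D.nm π = n := by
  simpa using congrArg re ((nm_eq π).trans h)

theorem nm_star (x : D.O) : D.nm (star x) = D.nm x := by rw [Cd.nm, QuadraticAlgebra.norm_star]; rfl

theorem nm_one : D.nm ζ = 1 ↔ IsUnit ζ := by
  rw [isUnit_iff_norm_isUnit, Int.isUnit_iff_natAbs_eq]; rfl

theorem fin (n : ℕ) : {x : D.O | D.nm x = n}.Finite := by
  refine Set.Finite.of_finite_image (f := fun x => (2 * x.re + D.b * x.im, x.im))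
    (((Set.finite_Icc (-(4 * n : ℤ)) (4 * n)).prod (Set.finite_Icc (-(4 * n : ℤ)) (4 * n))).subset ?_)
    fun x _ y _ e => ?_
  · rintro _ ⟨x, e, rfl⟩
    have k := four x
    rw [← nm_z, show D.nm x = n from e] at k
    have := D.neg
    have a := Int.le_self_sq (2 * x.re + D.b * x.im)
    have b := Int.le_self_sq (-(2 * x.re + D.b * x.im))
    have c := Int.le_self_sq x.im
    have d := Int.le_self_sq (-x.im)
    have := sq_nonneg x.im
    have := sq_nonneg (2 * x.re + D.b * x.im)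
    refine ⟨⟨?_, ?_⟩, ?_, ?_⟩ <;> dsimp only <;> nlinarith
  · obtain ⟨a, b⟩ := Prod.mk.inj e
    exact QuadraticAlgebra.ext (by rw [b] at a; linarith) b

theorem zero_of (h : ∀ k : ℕ, ((2 ^ k : ℕ) : D.O) ∣ β) : β = 0 := by
  have := dom (D := D)
  have := D.pid
  by_contra c
  obtain ⟨k, e⟩ := FiniteMultiplicity.of_not_isUnit (a := ((2 : ℕ) : D.O))
    (fun u => absurd ((nm_of (n := 2 * 2) (by rw [star_natCast, Nat.cast_mul])).symm.trans (nm_one.2 u)) (by decide)) c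
  exact e (Nat.cast_pow (α := D.O) 2 _ ▸ h _)

theorem nat_ne (h : n ≠ 0) : (n : D.O) ≠ 0 := fun e => h (by simpa using congrArg re e)

theorem two_ne (k : ℕ) : ((2 ^ k : ℕ) : D.O) ≠ 0 := nat_ne (by positivity)

theorem cm (x y : D.O) (T : Pt A B) : D.act x (D.act y T) = D.act y (D.act x T) := by
  change (D.act x * D.act y) T = (D.act y * D.act x) T
  rw [← map_mul, ← map_mul, mul_comm]

/-! ### the action -/

theorem ac_one : D.Ac m 1 1 := ⟨one_mem _, by rw [ga_one, map_one]; rfl⟩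

variable (cf : D.Cf)
include cf

theorem ac_mul (a : D.Ac m g β) (b : D.Ac m h γ) : D.Ac m (g * h) (β * γ) :=
  ⟨mul_mem a.1 b.1, by rw [ga_mul, b.2, cf.lin g a.1, a.2, mul_comm, map_mul]; rfl⟩

theorem ac_iff (m0 : m ≠ 0) (a : D.Ac m g β) : D.Ac m g γ ↔ m ∣ β - γ := by
  rw [← cf.ker m m0, map_sub, Cd.Ac, a.2, and_iff_right a.1, ← sub_eq_zero]; rfl

theorem ac_dvd (m0 : m * γ ≠ 0) (a : D.Ac (m * γ) g β) : D.Ac m g β :=
  ⟨a.1, by
    rw [← cf.dv m (left_ne_zero_of_mul m0) γ (right_ne_zero_of_mul m0), cf.lin g a.1, a.2, cm]⟩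

theorem ac_star (a : D.Ac n g β) (n0 : (n : D.O) ≠ 0) : D.Ac n (D.c * g * D.c) (star β) := by
  have c : D.c ∉ D.G := (cf.cG _).2 (cf.c2 ▸ one_mem _)
  refine ⟨(cf.cG _).1 fun k => c (by simpa using mul_mem k (inv_mem a.1)), ?_⟩
  have e := cf.ctp n n0
  rw [star_natCast] at e
  rw [ga_mul, ga_mul, e, cf.lin g a.1, a.2, cm, ← e, cf.sem _ c, ← ga_mul, cf.c2, ga_one]

theorem uniq (cg : D.Cg N) (c : IsCoprime β N) (u : IsUnit ζ) (v : IsUnit γ) (a : D.Ac N g (ζ * β))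
    (b : D.Ac N h (γ * β)) : ζ = γ := by
  have N0 : (N : D.O) ≠ 0 := nat_ne cg.ne
  obtain ⟨δ, -, d⟩ := cf.ac N N0 _ (mul_mem (inv_mem b.1) a.1)
  obtain ⟨γ', e⟩ := v.exists_left_inv
  have k := ac_mul cf b d
  rw [mul_inv_cancel_left, ac_iff cf N0 a] at k
  have k1 : D.Ac N (h⁻¹ * g) (ζ * γ') := (ac_iff cf N0 d).2 (c.symm.dvd_of_dvd_mul_left (by
    convert k.mul_left (-γ') using 1
    linear_combination -β * δ * e))
  have k2 := (cf.hm N N0 _).2 ⟨_, u.mul (.of_mul_eq_one _ e), k1⟩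
  rw [cg.hf N N0 dvd_rfl] at k2
  have k3 := cg.sep _ (u.mul (.of_mul_eq_one _ e)) ((ac_iff cf N0 k1).1 ⟨k2.1, k2.2.trans (by
    rw [map_one]; rfl)⟩)
  linear_combination γ * k3 - ζ * e

/-! ### Frobenius elements -/

omit cf in
theorem ch (o : Ov l P) (f : Fb l P g) (d : ¬ (l : ℤ) ∣ 2 * (4 * A ^ 3 + 27 * B ^ 2)) {k : ℕ}
    {T : Pt A B} (t : 2 ^ k • T = 0) : ga g (ga g T) + l • T = al A B l • ga g T := by
  have := Fact.mk o.1
  obtain ⟨κ, _, _, _, rd, h1, -, h2⟩ := P004M.TE.exists_rd d o.2.1 o.2.2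
  rw [← sub_eq_zero]
  refine P004M.TE.inj_tors h1 k (by
    rw [nsmul_sub, nsmul_add, smul_comm _ l, smul_comm _ (al A B l), ← map_nsmul, ← map_nsmul, t,
      map_zero, map_zero, zsmul_zero, nsmul_zero, add_zero, sub_zero]) ?_
  have := P004M.TE.frob_ch (P004M.TE.char_ne d) (P004M.TE.disc_ne d) (rd T)
  rw [ZMod.card, natCast_zsmul] at this
  rw [P004M.TE.al_eq d, neg_smul, sub_neg_eq_add, add_right_comm, map_add, map_add, map_zsmul,
    map_nsmul, h2 g f, h2 g f, this]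

theorem tt (k : ℕ) : 2 ^ k • D.tp (2 ^ k : ℕ) = 0 := by
  rw [← (cf.ker _ (two_ne k) _).2 dvd_rfl, map_natCast]; rfl

omit cf in
theorem nP (o : Ov l P) (c : n.Coprime l) : D.j n ∉ P := fun k => by
  obtain ⟨a, b, e⟩ := c.cast (R := 𝓞 Qb)
  rw [map_natCast] at k
  exact o.2.1.ne_top ((Ideal.eq_top_iff_one _).2
    (e ▸ add_mem (P.mul_mem_left _ k) (P.mul_mem_left _ o.2.2)))

omit cf in
theorem ex_ov (hl : l.Prime) : ∃ P, Ov l P := by
  have : (Ideal.span {(l : ℤ)}).IsPrime :=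
    (Ideal.span_singleton_prime (by exact_mod_cast hl.ne_zero)).2 (Nat.prime_iff_prime_int.1 hl)
  obtain ⟨P, -, hP, h⟩ := Ideal.exists_ideal_over_prime_of_isIntegral (S := 𝓞 Qb)
    (Ideal.span {(l : ℤ)}) ⊥ (by
      rw [Ideal.comap_bot_of_injective _ (algebraMap ℤ (𝓞 Qb)).injective_int]; exact bot_le)
  refine ⟨P, hl, hP, ?_⟩
  have : (l : ℤ) ∈ P.comap (algebraMap ℤ (𝓞 Qb)) := h ▸ Ideal.mem_span_singleton_self _
  simpa using this

/-- the primes which do not divide `N` -/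
theorem frob (cg : D.Cg N) (hl : l.Prime) (c : ¬ l ∣ N) :
    (∃ (π ζ : D.O) (g : GQ), Prime π ∧ π * star π = l ∧ ¬ π ∣ star π ∧ IsUnit ζ ∧ D.Ac N g (ζ * π) ∧
      ζ * π + star (ζ * π) = al A B l) ∨
    ((∀ ζ : D.O, IsUnit ζ → ∀ g, D.Ac N g (ζ * l) → ζ = -1) ∧ Prime (l : D.O) ∧ al A B l = 0) := by
  have := dom (D := D)
  have N0 : (N : D.O) ≠ 0 := nat_ne cg.ne
  have d := mt (cg.pf l hl).2 c
  have d' : ¬ (l : ℤ) ∣ 2 * (4 * A ^ 3 + 27 * B ^ 2) := fun k => d (k.trans ⟨3, by ring⟩)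
  have c2 (k : ℕ) : (2 ^ k).Coprime l := .pow_left _ ((Nat.coprime_primes Nat.prime_two hl).2
    fun e => d' (e ▸ dvd_mul_right _ _))
  have cN : IsCoprime (N : D.O) l := (hl.coprime_iff_not_dvd.2 c).symm.cast
  obtain ⟨P, o⟩ := ex_ov hl
  obtain ⟨φ, f⟩ : ∃ φ, Fb l P φ := P022D.W.exists_phi o.1 o.2.1 o.2.2
  obtain ⟨-, s1, s2⟩ := cf.spl l P φ o (fun k => by
    obtain ⟨i, a, b⟩ := cg.neg l P o k
    refine two_ne 1 (zero_of (D := D) fun k => ?_)
    have := (ac_iff cf (two_ne k) (γ := -1) ⟨(b _ (two_ne k) (nP o (c2 k))).1, (cf.good l P i o d a _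
      (two_ne k) (nP o (c2 k))).2.trans ((ga_one _).symm.trans ac_one.2)⟩).1
      (b _ (two_ne k) (nP o (c2 k)))
    convert this using 1
    norm_num) f
  have e (k : ℕ) := ch o f d' (tt cf k)
  by_cases m : φ ∈ D.G
  · obtain ⟨π, e1, e2, e3⟩ := s1 m
    obtain ⟨ζ, u, a⟩ := cf.mt _ _ _ _ e3
    rw [pow_one] at a
    refine .inl ⟨π, ζ, φ, e3.pr, e1, fun ⟨y, k⟩ => e2 (by
      rw [k, map_mul]; exact P.mul_mem_right _ e3.mem), u, a _ N0 (e1 ▸ cN).of_mul_right_left, ?_⟩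
    have z : ζ * star ζ = 1 := by rw [← nm_eq, nm_one.2 u, Nat.cast_one]
    refine sub_eq_zero.1 ((mul_eq_zero.1 (zero_of fun k => ?_)).resolve_left
      (mul_ne_zero u.ne_zero e3.pr.ne_zero))
    have b := (a _ (two_ne k) (e1 ▸ (c2 k).cast).of_mul_right_left).2
    have := e k
    rw [b, cf.lin _ m, b] at this
    rw [← cf.ker _ (two_ne k), show ζ * π * (ζ * π + star (ζ * π) - al A B l) =
      ζ * π * (ζ * π) + l - al A B l * (ζ * π) by
        rw [star_mul]; linear_combination π * star π * z + e1, map_sub, map_add, map_mul _ (ζ * π),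
      map_mul _ (al A B l : D.O), map_natCast, map_intCast]
    exact sub_eq_zero.2 this
  · have e3 := s2 m
    obtain ⟨ζ, u, a⟩ := cf.mt _ _ _ _ e3
    rw [pow_one] at a
    have b (k : ℕ) : D.act (ζ * l + l) (D.tp (2 ^ k : ℕ)) = al A B l • ga φ (D.tp (2 ^ k : ℕ)) := by
      rw [← e k, ← ga_mul, (a _ (two_ne k) (c2 k).cast).2, map_add, map_natCast]; rfl
    have z : ζ * l + l = 0 := (mul_eq_zero.1 (zero_of (β := (ω - star ω) * _) fun k => by
      have t := ch o f d' (T := D.act ω (D.tp (2 ^ k : ℕ))) (k := k) (by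
        rw [← map_nsmul, tt cf, map_zero])
      rw [← ga_mul, cf.lin _ e3.G, ga_mul, ← map_nsmul, ← map_add, e k, cf.sem _ m, ← map_zsmul (D.act _),
        ← b] at t
      rw [← cf.ker _ (two_ne k), map_mul, map_sub]
      exact sub_eq_zero.2 t)).resolve_left fun k => by simpa using congrArg im k
    refine .inr ⟨fun γ v g k => (uniq cf cg cN.symm v u k (a _ N0 cN)).trans
      (mul_right_cancel₀ e3.pr.ne_zero (by linear_combination z)), e3.pr, ?_⟩
    have : (al A B l : D.O) = 0 := zero_of fun k => (cf.ker _ (two_ne k) _).1 (by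
      have t := congrArg (ga φ⁻¹) (b k)
      rw [z, map_zero, map_zsmul, ← ga_mul, inv_mul_cancel, ga_one] at t
      rw [map_intCast]
      exact t.symm.trans (map_zero _))
    simpa using congrArg re this

/-! ### sums over elements of given norm -/

omit cf

theorem img {ψ : D.O → D.O} (mul : ∀ x y, ψ (x * y) = ψ x * ψ y) (p0 : π ≠ 0) {s t : Set D.O}
    (f : t.Finite) (e : ∀ y, π * y ∈ s ↔ y ∈ t) :
    ∑ᶠ x ∈ s ∩ {x | π ∣ x}, ψ x = ψ π * ∑ᶠ x ∈ t, ψ x := by
  have := dom (D := D)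
  rw [show s ∩ {x | π ∣ x} = (π * ·) '' t from Set.ext fun x => ⟨fun ⟨a, y, k⟩ =>
    ⟨y, (e y).1 (k ▸ a), k.symm⟩, fun ⟨y, a, k⟩ => k ▸ ⟨(e y).2 a, y, rfl⟩⟩,
    finsum_mem_image (mul_right_injective₀ p0).injOn, mul_finsum_mem' _ _ f]
  simp only [mul]

theorem al_mul (c : n.Coprime l) : al A B (n * l) = al A B n * al A B l :=
  (P004N.H169.LF.LFunction_mult _).map_mul_of_coprime c

theorem al_rec (hl : l.Prime) (d : ¬ (l : ℤ) ∣ 6 * (4 * A ^ 3 + 27 * B ^ 2)) (n0 : n ≠ 0) :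
    al A B (l * (l * n)) + l * al A B n = al A B l * al A B (l * n) := by
  obtain ⟨k, u, c, rfl⟩ := Nat.exists_eq_pow_mul_and_not_dvd n0 l hl.ne_one
  have c (i : ℕ) := al_mul (A := A) (B := B) ((hl.coprime_iff_not_dvd.2 c).pow_left i)
  have p := Nat.prime_iff_prime_int.1 hl
  have := (P004N.H169.LF.LFunction_good (⟨0, 0, 0, A, B⟩ : WeierstrassCurve ℤ) hl fun e => d (by
    rw [show (⟨0, 0, 0, A, B⟩ : WeierstrassCurve ℤ).Δ = 2 ^ 4 * -(4 * A ^ 3 + 27 * B ^ 2) by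
      simp [WeierstrassCurve.Δ, WeierstrassCurve.b₂, WeierstrassCurve.b₄, WeierstrassCurve.b₆,
        WeierstrassCurve.b₈]; ring] at e
    exact (p.dvd_or_dvd e).elim (fun e => ((p.dvd_of_dvd_pow e).trans ⟨3, rfl⟩).mul_right _)
      fun e => (dvd_neg.1 e).mul_left _)).2 k
  rw [show (⟨0, 0, 0, A, B⟩ : WeierstrassCurve ℤ).map (Int.castRingHom ℚ) =
    ⟨0, 0, 0, A * (1 : ℤ) ^ 2, B * (1 : ℤ) ^ 3⟩ by simp [WeierstrassCurve.map]] at this
  change al A B _ = al A B _ * al A B _ - _ * al A B _ at this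
  rw [← mul_assoc l (l ^ k), ← pow_succ', ← mul_assoc, ← pow_succ', c, c, c]
  linear_combination al A B u * this

end Ep

open Ep

/-- **row EP** -/
theorem ep : EP := fun A B D N cf cg => by
  have := dom (D := D)
  have N0 : (N : D.O) ≠ 0 := nat_ne cg.ne
  choose g ζ hu ha using cf.onto N N0
  obtain ⟨ε, z, hε⟩ : ∃ ε : D.O → D.O, (∀ β, ¬ IsCoprime β (N : D.O) → ε β = 0) ∧ ∀ β c, ε β = ζ β c :=
    ⟨fun β => if c : _ then ζ β c else 0, fun β c => dif_neg c, fun β c => dif_pos c⟩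
  have un (β) (c : IsCoprime β (N : D.O)) : IsUnit (ε β) := hε β c ▸ hu β c
  have ac (β) (c : IsCoprime β (N : D.O)) : D.Ac N (g β c) (ε β * β) := hε β c ▸ ha β c
  have eq {β γ h} (c : IsCoprime β (N : D.O)) (u : IsUnit γ) (a : D.Ac N h (γ * β)) : ε β = γ :=
    uniq cf cg c (un β c) u (ac β c) a
  have mul (β γ) : ε (β * γ) = ε β * ε γ := by
    by_cases b : IsCoprime β (N : D.O)
    · by_cases c : IsCoprime γ (N : D.O)
      · exact eq (b.mul_left c) ((un β b).mul (un γ c))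
          (mul_mul_mul_comm (ε β) β _ _ ▸ ac_mul cf (ac β b) (ac γ c))
      · rw [z γ c, z _ fun k => c k.of_mul_left_right, mul_zero]
    · rw [z β b, z _ fun k => b k.of_mul_left_left, zero_mul]
  have inv (γ) (u : IsUnit γ) : ε γ * γ = 1 := by
    obtain ⟨δ, e⟩ := u.exists_left_inv
    rw [eq ⟨δ, 0, by simpa using e⟩ (.of_mul_eq_one _ e) (e ▸ ac_one), e]
  have st {β : D.O} (c : IsCoprime β N) : IsCoprime (star β) N := by
    simpa [starRingEnd_apply] using c.map (starRingEnd D.O)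
  have cj (β) : ε (star β) = star (ε β) := by
    by_cases c : IsCoprime β (N : D.O)
    · exact eq (st c) (un β c).star (star_mul' (ε β) β ▸ ac_star cf (ac β c) N0)
    · rw [z β c, z _ fun k => c (star_star β ▸ st k), star_zero]
  refine ⟨ε, z, un, mul, fun β γ => ?_, inv, cj, fun m m0 ⟨δ, d⟩ β c => ?_, fun n => ?_, fun n => ?_⟩
  · by_cases c : IsCoprime β (N : D.O)
    · exact eq (c.add_mul_left_left γ) (un β c)
        ((ac_iff cf N0 (ac β c)).2 ⟨-(ε β * γ), by ring⟩)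
    · rw [z β c, z _ fun k => c (.of_add_mul_left_left k)]
  · subst d
    refine ⟨fun ⟨h, a⟩ => eq c.of_mul_right_left isUnit_one ((one_mul β).symm ▸ ac_dvd cf m0 a),
      fun e => ?_⟩
    obtain ⟨h, γ, u, a⟩ := cf.onto _ m0 β c
    rw [← eq c.of_mul_right_left u (ac_dvd cf m0 a), e, one_mul] at a
    exact ⟨h, a⟩
  · refine (em (IsCoprime (n : D.O) N)).imp (fun c => ?_) (z _)
    have := cj n
    rw [star_intCast] at this
    rw [sq]
    nth_rw 2 [this]
    rw [← nm_eq, nm_one.2 (un _ c), Nat.cast_one]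
  have mu (x y) : ε (x * y) * (x * y) = ε x * x * (ε y * y) := by rw [mul, mul_mul_mul_comm]
  induction n using Nat.strong_induction_on with | _ n ih => ?_
  intro c
  rcases eq_or_ne n 1 with rfl | n1
  · rw [show al A B 1 = 1 from (P004N.H169.LF.LFunction_mult _).1, finsum_mem_congr
      (s := {x | D.nm x = 1}) (g := fun _ => 1) rfl fun x k => inv x (nm_one.1 k), finsum_mem_eq_finite_toFinset_sum _ (fin 1),
      Int.cast_one, mul_one, Finset.sum_const, nsmul_one, ← Set.ncard_eq_toFinset_card _ (fin 1),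
      ← Nat.card_coe_set_eq]
    exact congrArg _ (Nat.card_congr (Equiv.ofBijective (fun u => ⟨u, nm_one.2 u.isUnit⟩)
      ⟨fun u v e => Units.ext (congrArg Subtype.val e), fun x => ⟨(nm_one.1 x.2).unit, rfl⟩⟩))
  obtain ⟨l, hl, n, rfl⟩ := Nat.exists_prime_and_dvd n1
  have lN := hl.coprime_iff_not_dvd.1 c.coprime_mul_right
  have n0 : n ≠ 0 := by
    rintro rfl
    exact Nat.not_coprime_of_dvd_of_dvd one_lt_two (dvd_zero _)
      ((cg.pf 2 Nat.prime_two).2 (Dvd.dvd.mul_right (by norm_num) _)) c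
  have l0 : (l : D.O) ≠ 0 := nat_ne hl.ne_zero
  have cl : IsCoprime (l : D.O) N := c.coprime_mul_right.cast
  have s := img (ψ := fun x => ε x * x) mu l0 (s := {x | D.nm x = l * n}) (t := {x | l * D.nm x = n})
    ((fin (n / l)).subset fun x k => (Nat.div_eq_of_eq_mul_right hl.pos k.symm).symm) fun y => by
      rw [Set.mem_setOf, nm_mul, nm_of (n := l * l) (by simp), mul_assoc, mul_right_inj' hl.ne_zero]
      rfl
  have i1 := ih n (lt_mul_left n0.bot_lt hl.one_lt) c.coprime_mul_left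
  have i2 : (Nat.card D.Oˣ : D.O) * (al A B l * al A B n - al A B (l * n)) =
      l * ∑ᶠ x ∈ {x | l * D.nm x = n}, ε x * x := by
    by_cases d : l ∣ n
    · obtain ⟨k, rfl⟩ := d
      simp only [mul_right_inj' hl.ne_zero]
      have k0 := right_ne_zero_of_mul n0
      rw [← ih k ((lt_mul_left k0.bot_lt hl.one_lt).trans (lt_mul_left n0.bot_lt hl.one_lt))
        c.coprime_mul_left.coprime_mul_left]
      have := congrArg (Int.cast : ℤ → D.O) (al_rec hl (mt (cg.pf l hl).2 lN) k0)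
      push_cast at this
      linear_combination -(Nat.card D.Oˣ : D.O) * this
    · rw [al_mul (hl.coprime_iff_not_dvd.2 d), Set.eq_empty_of_forall_notMem
        (s := {x | l * D.nm x = n}) fun x k => d ⟨_, k.symm⟩]
      simp
  have dv {x} (k : D.nm x = l * n) : (l : D.O) ∣ x * star x := ⟨n, by rw [← nm_eq, k, Nat.cast_mul]⟩
  have sd {x y : D.O} (k : x ∣ star y) : star x ∣ y := star_star y ▸ map_dvd (starRingEnd D.O) k
  obtain ⟨π, γ, h, p, e, nd, u, a, t⟩ | ⟨a, p, t⟩ := frob cf cg hl lN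
  · have e1 := eq (e ▸ cl).of_mul_left_left u a
    have s1 (ρ : D.O) (r : D.nm ρ = l) := img (ψ := fun x => ε x * x) mu (π := ρ)
      (fun k => hl.ne_zero (by simpa [k, Cd.nm] using r.symm)) (s := {x | D.nm x = l * n}) (fin n)
      fun y => by rw [Set.mem_setOf, nm_mul, r, mul_right_inj' hl.ne_zero]; rfl
    have s2 := finsum_mem_union_inter (f := fun x => ε x * x)
      ((fin (l * n)).inter_of_left {x | π ∣ x}) ((fin (l * n)).inter_of_left {x | star π ∣ x})
    rw [s1 π (nm_of e), s1 _ ((nm_star π).trans (nm_of e)), ← Set.inter_union_distrib_left,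
      Set.inter_eq_left.2 (show {x | D.nm x = l * n} ⊆ {x | π ∣ x} ∪ {x | star π ∣ x} from
        fun x k => (p.dvd_or_dvd ((e ▸ dvd_mul_right _ _).trans (dv k))).imp id sd),
      ← Set.inter_inter_distrib_left,
      show {x | π ∣ x} ∩ {x | star π ∣ x} = {x | (l : D.O) ∣ x} from Set.ext fun x =>
        ⟨fun ⟨a, y, k⟩ => by
          obtain ⟨w, rfl⟩ := (p.dvd_or_dvd (k ▸ a)).resolve_left nd
          exact ⟨w, by rw [k, ← e]; ring⟩,
        fun k => ⟨(e ▸ dvd_mul_right _ _).trans k, (e ▸ dvd_mul_left _ _).trans k⟩⟩, s, ← i1, cj,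
      ← star_mul', e1] at s2
    have e2 : ε l = 1 := by rw [← e, mul, cj, ← nm_eq, e1, nm_one.2 u, Nat.cast_one]
    rw [e2] at s2
    linear_combination -i2 - s2 - Nat.card D.Oˣ * al A B n * t
  · rw [Set.inter_eq_left.2 (show {x | D.nm x = l * n} ⊆ {x | (l : D.O) ∣ x} from fun x k =>
      (p.dvd_or_dvd (dv k)).elim id fun k => star_natCast (R := D.O) l ▸ sd k),
      a _ (un _ cl) _ (ac _ cl)] at s
    rw [t] at i2
    push_cast at i2
    linear_combination -i2 - s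

end Vale.Agent.P014X
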