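import Vale.Agent.P014T.Ig.Hom
import Vale.Agent.P004K.Rc.Cyc
import Vale.Agent.P004M.TE.All
import Vale.Agent.P022.H20.Frob

/-! # P014X: reduction to the maximal order -/

set_option autoImplicit false
set_option linter.all false

open NumberField Matrix Polynomial IntermediateField
open scoped Classical

noncomputable section

namespace Vale.Agent.P014X.Cm

open Vale.Agent.P022 P027H P027M.M P004K P004K.Rc
open P004M.TE (al Pt ga bs al_eq frob_mt)
open P027M.K (TM)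

section ae

theorem tm_inj {X Y : Type} [AddCommGroup X] [AddCommGroup Y] (φ : X →+ Y) [Finite φ.ker]
    {x : TM 2 X} (h : TM.map 2 φ x = 0) : x = 0 := by
  have e : (Nat.card φ.ker : ℤ_[2]) • x = 0 := TM.ext fun r => by
    rw [Nat.cast_smul_eq_nsmul, map_nsmul, map_zero]
    exact congrArg Subtype.val (card_nsmul_eq_zero' (G := φ.ker)
      (x := ⟨TM.cp r x, (congrArg (TM.cp r) h).trans (map_zero _)⟩))
  exact (smul_eq_zero.1 e).resolve_left (Nat.cast_ne_zero.2 Nat.card_pos.ne')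

variable {A B A' B' : ℤ}

/-- isogenous curves have almost the same coefficients -/
theorem ae_of (h : 4 * A ^ 3 + 27 * B ^ 2 ≠ 0) (h' : 4 * A' ^ 3 + 27 * B' ^ 2 ≠ 0)
    (φ : Pt A' B' →+ Pt A B) [Finite φ.ker] (e : ∀ g y, φ (ga g y) = ga g (φ y)) :
    {p : ℕ | p.Prime ∧ al A' B' p ≠ al A B p}.Finite := by
  have hD : 4 * (A : ℚ) ^ 3 + 27 * (B : ℚ) ^ 2 ≠ 0 := by exact_mod_cast h
  have hD' : 4 * (A' : ℚ) ^ 3 + 27 * (B' : ℚ) ^ 2 ≠ 0 := by exact_mod_cast h'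
  let M := LinearMap.toMatrix (bs hD') (bs hD) (TM.map 2 φ)
  have d : M.det ≠ 0 := fun e => by
    obtain ⟨v, v0, hv⟩ := Matrix.exists_mulVec_eq_zero_iff.2 e
    obtain ⟨x, rfl⟩ := (bs hD').equivFun.surjective v
    have := (LinearMap.toMatrix_mulVec_repr (bs hD') (bs hD) (TM.map 2 φ) x).symm.trans hv
    refine v0 ?_
    rw [tm_inj φ ((bs hD).equivFun.map_eq_zero_iff.1 this), map_zero]
  have c : ∀ g, P004M.TE.mt hD g * M = M * P004M.TE.mt hD' g := fun g => by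
    refine (LinearMap.toMatrix_comp _ _ _ _ _).symm.trans
      (Eq.trans (congrArg _ ?_) (LinearMap.toMatrix_comp _ _ _ _ _))
    exact LinearMap.ext fun x => TM.ext fun r => (e g _).symm
  have n0 := mul_ne_zero (mul_ne_zero two_ne_zero h) (mul_ne_zero two_ne_zero h')
  refine (Set.finite_Iic (Int.natAbs _)).subset fun p ⟨hp, k⟩ =>
    Nat.le_of_dvd (Int.natAbs_pos.2 n0) (Int.natCast_dvd.1 (by_contra fun b => k ?_))
  have : Fact p.Prime := ⟨hp⟩
  have b1 := mt (Dvd.dvd.mul_right · _) b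
  have b2 := mt (Dvd.dvd.mul_left · _) b
  obtain ⟨g, f⟩ := H20.exists_isFrob hp
  have t := congrArg (fun Y => (Y * M.adjugate).trace) (c g)
  rw [mul_assoc, mul_adjugate, trace_mul_cycle, adjugate_mul, mul_smul_comm, smul_mul_assoc,
    mul_one, one_mul, trace_smul, trace_smul, (frob_mt hD b1 f).1, (frob_mt hD' b2 f).1] at t
  rw [al_eq b1, al_eq b2]
  exact_mod_cast (mul_left_cancel₀ d t).symm

end ae

/-- the field of a multiplication -/
theorem ex_iq {α : ℂ} (h : α.im ≠ 0) {t d : ℤ} (e : α ^ 2 = t * α - d) :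
    ∃ (K : Type) (_ : Field K) (_ : NumberField K) (j : K →+* Qb) (x : 𝓞 K),
      Iq K ∧ JJ j x = α := by
  let p : ℤ[X] := X ^ 2 - (C t * X - C d)
  have m : p.Monic := monic_X_pow_sub (by compute_degree!)
  have ev : ∀ {R : Type} [CommRing R] (y : R), aeval y p = y ^ 2 - (t * y - d) := fun y => by
    simp [p]
  have i0 : IsIntegral ℤ α := ⟨p, m, (ev α).trans (sub_eq_zero.2 e)⟩
  obtain ⟨a, rfl⟩ := ex_io (i0.tower_top (A := ℚ)).isAlgebraic
  have ea : a ^ 2 = t * a - d := P004K.io_inj (by simpa using e)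
  have i1 : IsIntegral ℤ a := ⟨p, m, (ev a).trans (sub_eq_zero.2 ea)⟩
  have i2 : IsIntegral ℚ a := i1.tower_top
  have := adjoin.finiteDimensional i2
  let y : ℚ⟮a⟯ := ⟨a, mem_adjoin_simple_self ℚ a⟩
  have ey : y ^ 2 = t * y - d := Subtype.ext (by simpa using ea)
  have nf : NumberField ℚ⟮a⟯ := ⟨⟩
  refine ⟨ℚ⟮a⟯, inferInstance, nf, (ℚ⟮a⟯).val, ⟨y, p, m, (ev y).trans (sub_eq_zero.2 ey)⟩,
    ⟨?_, ⟨fun f => ?_⟩⟩, rfl⟩
  · rw [adjoin.finrank i2]
    refine le_antisymm ((natDegree_le_natDegree (minpoly.min ℚ a (m.map (algebraMap ℤ ℚ)) (by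
      rw [aeval_map_algebraMap]
      exact (ev a).trans (sub_eq_zero.2 ea)))).trans (natDegree_map_le.trans ?_))
      (minpoly.two_le_natDegree_iff i2 |>.2 fun ⟨q, k⟩ => h ?_)
    · unfold p
      compute_degree
    · rw [← k, AlgHom.commutes]
      simp
  · have r := congrArg f ey
    simp only [map_pow, map_sub, map_mul, map_intCast] at r
    have e1 := congrArg Complex.re e
    have e2 := congrArg Complex.im e
    simp only [sq, Complex.mul_re, Complex.mul_im, Complex.sub_re, Complex.sub_im,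
      Complex.intCast_re, Complex.intCast_im] at e1 e2
    have e3 : 2 * (io a).re = t := mul_right_cancel₀ h (by linear_combination e2)
    exact (add_pos_of_nonneg_of_pos (sq_nonneg (f y - (io a).re)) (sq_pos_iff.2 h)).ne'
      (by linear_combination r - e1 + ((io a).re - f y) * e3)

section

variable {O : Type} [CommRing O] {J : O →+* ℂ} {ω : O} {s : O →+* O} (q : Qd J ω s)
include q

theorem aut_J (σ : ℂ ≃+* ℂ) (b : O) : ∃ a, σ (J b) = J a := by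
  obtain ⟨m, t, e⟩ := q.sp (ω * ω)
  have e1 := congrArg J e
  simp only [map_mul, map_add, map_intCast] at e1
  have e2 := congrArg σ e1
  simp only [map_mul, map_add, map_intCast] at e2
  obtain ⟨u, v, rfl⟩ := q.sp b
  rcases mul_eq_zero.1 (by linear_combination e2 - e1 :
    (σ (J ω) - J ω) * (σ (J ω) - (t - J ω)) = 0) with k | k
  · exact ⟨u + v * ω, by simp [sub_eq_zero.1 k]⟩
  · exact ⟨u + v * (t - ω), by simp [sub_eq_zero.1 k]⟩

/-- the largest sublattice with multiplication by the maximal order is rational -/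
theorem sub {Λ : Submodule ℤ ℂ} {A B : ℤ} (h : IsLat Λ) (h2 : g2 Λ = -4 * A) (h3 : g3 Λ = -4 * B)
    {x : O} (x0 : (J x).im ≠ 0) (hx : ∀ z ∈ Λ, J x * z ∈ Λ) :
    ∃ M ≤ Λ, KL J 1 M ∧ (∃ a : ℚ, g2 M = a) ∧ ∃ b : ℚ, g3 M = b := by
  obtain ⟨u, v, rfl⟩ := q.sp x
  have v0 : (v : ℂ) ≠ 0 := fun e => x0 (by simp [e])
  have le : col J ⊤ Λ ≤ Λ := fun z hz => by simpa using hz 1 trivial
  have st : ∀ a, ∀ z ∈ col J ⊤ Λ, J a * z ∈ col J ⊤ Λ := fun a z hz b _ =>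
    mem_of_eq (hz (b * a) trivial) (by rw [map_mul, mul_assoc])
  have lat : IsLat (col J ⊤ Λ) := by
    refine ((hom_scl v0 Λ).isLat h).of_between (n := v.natAbs ^ 2) (fun z hz a _ => ?_)
      (pow_pos (Int.natAbs_pos.2 (Int.cast_ne_zero.1 v0)) 2) fun z hz => ?_
    · obtain ⟨u', v', rfl⟩ := q.sp a
      refine mem_of_eq (add_mem (int_mul_mem (v * u' - v' * u) (mem_scl.1 hz))
        (int_mul_mem v' (hx _ (mem_scl.1 hz)))) ?_
      simp only [map_add, map_mul, map_intCast]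
      push_cast
      field_simp
      ring
    · rw [← Int.cast_natCast, Nat.cast_pow, Int.natAbs_sq]
      exact mem_scl.2 (mem_of_eq (int_mul_mem v (le hz)) (by push_cast; field_simp))
  generalize hM : col J ⊤ Λ = M at le st lat
  have k : ∀ (σ : ℂ ≃+* ℂ) N ψ, Tq σ 1 M N ψ → N ≤ M := fun σ N ψ t z hz => by
    obtain ⟨χ, t'⟩ := P014T.Ig.Hm.ex_tr h h2 h3 σ
    rw [← hM]
    intro b _
    obtain ⟨a, e⟩ := aut_J q σ⁻¹ b
    have := (t.tp.cm (st a)).1 z hz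
    rw [← e, show σ (σ⁻¹ (J b)) = J b from σ.apply_symm_apply _] at this
    simpa using (t.hom (tq_tr t') one_ne_zero (fun z a => by simpa using le a)).1 _ this
  have f : ∀ σ : ℂ ≃+* ℂ, σ (g2 M) = g2 M ∧ σ (g3 M) = g3 M := fun σ => by
    obtain ⟨N, ψ, t⟩ := lat.exists_tr σ
    obtain ⟨N', χ, t'⟩ := lat.exists_tr σ⁻¹
    obtain ⟨χ', t'', -⟩ := (tq_tr t').symm
    rw [inv_inv, inv_one, map_one] at t''
    obtain rfl : N = M := le_antisymm (k σ N ψ (tq_tr t)) fun z hz => by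
      simpa using (t''.hom (tq_tr t) one_ne_zero fun z a => by
        simpa using k _ _ _ (tq_tr t') a).1 z hz
    exact ⟨t.g23.1.symm, t.g23.2.symm⟩
  exact ⟨M, le, ⟨lat, fun a => st _⟩, rat_of_fixed fun σ => (f σ).1, rat_of_fixed fun σ => (f σ).2⟩

end

theorem disc_of {Λ : Submodule ℤ ℂ} {A B : ℤ} (h : IsLat Λ) (h2 : g2 Λ = -4 * A)
    (h3 : g3 Λ = -4 * B) : 4 * A ^ 3 + 27 * B ^ 2 ≠ 0 := fun e => by
  have e' : (4 * A ^ 3 + 27 * B ^ 2 : ℂ) = 0 := by exact_mod_cast e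
  apply h.disc_ne
  rw [h2, h3]
  linear_combination e'

/-- **the reduction** -/
theorem red {Λ : Submodule ℤ ℂ} {A B : ℤ} (h : IsLat Λ) (h2 : g2 Λ = -4 * A) (h3 : g3 Λ = -4 * B)
    {α : ℂ} (α0 : α.im ≠ 0) (hα : ∀ z ∈ Λ, α * z ∈ Λ) :
    ∃ (K : Type) (_ : Field K) (_ : NumberField K) (j : K →+* Qb) (A' B' : ℤ)
      (Λ' : Submodule ℤ ℂ), Iq K ∧ 4 * A' ^ 3 + 27 * B' ^ 2 ≠ 0 ∧ g2 Λ' = -4 * A' ∧
        g3 Λ' = -4 * B' ∧ KL (JJ j) 1 Λ' ∧ {p : ℕ | p.Prime ∧ al A' B' p ≠ al A B p}.Finite := by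
  obtain ⟨t, d, e⟩ := end_quad h hα
  obtain ⟨K, _, _, j, x, hK, rfl⟩ := ex_iq α0 e
  obtain ⟨ω, s, q⟩ := qd j hK
  obtain ⟨M, le, k, ⟨a, ea⟩, b, eb⟩ := sub q h h2 h3 α0 hα
  have a0 : (a.den : ℂ) ≠ 0 := Nat.cast_ne_zero.2 a.den_nz
  have b0 : (b.den : ℂ) ≠ 0 := Nat.cast_ne_zero.2 b.den_nz
  have c0 : (2 * a.den * b.den : ℚ) ≠ 0 := by positivity
  have H := hom_scl (inv_ne_zero (Rat.cast_ne_zero.2 c0 : (_ : ℂ) ≠ 0)) M
  have k' := hom_kl H k
  have e2 : g2 (scl ((2 * a.den * b.den : ℚ) : ℂ)⁻¹ M) =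
      -4 * (-4 * a.den ^ 3 * b.den ^ 4 * a.num : ℤ) := by
    rw [H.g2, inv_inv, ea, Rat.cast_def a]
    push_cast
    field_simp
    ring
  have e3 : g3 (scl ((2 * a.den * b.den : ℚ) : ℂ)⁻¹ M) =
      -4 * (-16 * a.den ^ 6 * b.den ^ 5 * b.num : ℤ) := by
    rw [H.g3, inv_inv, eb, Rat.cast_def b]
    push_cast
    field_simp
    ring
  obtain ⟨φ, -, c, -, f, -⟩ := P014T.Ig.hom h h2 h3 k'.lat e2 e3 c0 fun z hz =>
    le (mem_of_eq (mem_scl.1 hz) (by rw [inv_inv]))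
  exact ⟨K, _, _, j, _, _, _, hK, disc_of k'.lat e2 e3, e2, e3, k',
    ae_of (disc_of h h2 h3) (disc_of k'.lat e2 e3) φ c⟩

end Vale.Agent.P014X.Cm
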