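import Vale.Agent.P014X.St0
import Vale.Agent.P014X.Rx.Cm0
import Vale.Agent.P014X.Cm.Red

/-! # P014X: the passage to the maximal order (row EXC, helper37) -/

set_option autoImplicit false
set_option linter.all false

open NumberField QuadraticAlgebra
open scoped Classical

noncomputable section

namespace Vale.Agent.P014X

open Vale.Agent.P022 P027H P027M.M P004K P004K.Rc Cs

/-- **row EXC** -/
theorem exc : EXC := fun A B _ ⟨_, _, h, h2, h3, x0, hx⟩ => by
  obtain ⟨K, _, _, j, A', B', Λ, iq, el, e2, e3, kl, ae⟩ := Cm.red h h2 h3 x0 hx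
  obtain ⟨ex, U⟩ := ex_uf kl.lat e2 e3
  obtain ⟨w, s, q⟩ := qd j iq
  have := pid U iq kl
  obtain ⟨v, v0, hv⟩ := ex_gen q kl
  obtain ⟨act, H⟩ := U.ex_act kl alg_J
  obtain ⟨a, b, e⟩ := q.sp (w * w)
  let f : Qa a b ℤ →ₐ[ℤ] 𝓞 K := lift ⟨w, by simpa using e⟩
  have hf (x : Qa a b ℤ) : f x = x.re + x.im * w := by simp [f, lift]
  have fw : f ω = w := by simp [hf]
  have fi : Function.Injective f := (injective_iff_map_eq_zero f).2 fun x z => by
    have z1 := congrArg (JJ j) ((hf x).symm.trans z)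
    simp only [map_add, map_mul, map_intCast, map_zero] at z1
    have z2 : x.im = 0 := by simpa [q.im.ne'] using congrArg Complex.im z1
    exact QuadraticAlgebra.ext (by simpa [z2] using z1) z2
  let φ := RingEquiv.ofBijective f.toRingHom ⟨fi, fun y =>
    let ⟨m, n, k⟩ := q.sp y
    ⟨⟨m, n⟩, (hf _).trans k.symm⟩⟩
  obtain ⟨c, hc⟩ := ex_g starRingAut
  obtain ⟨ψ, t⟩ := U.tr starRingAut
  obtain ⟨η, eη⟩ := (hv (starRingEnd ℂ v)).1 (by
    simpa using (((tq_cj kl.lat).uniq (tq_tr t)).1.2 (starRingEnd ℂ v)).1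
      (by simpa [mem_cjL] using (hv v).2 ⟨1, by simp⟩))
  have L : La v (JJ j (f ω)) = Λ := Submodule.ext fun z => by
    rw [La, Submodule.mem_span_pair, hv, fw]
    refine ⟨fun ⟨m, n, k⟩ => ⟨m + n * w, by simp [← k]; ring⟩, fun ⟨y, k⟩ => ?_⟩
    obtain ⟨m, n, rfl⟩ := q.sp y
    exact ⟨m, n, by simp [k]; ring⟩
  choose tp ht using fun m (m0 : m ≠ 0) => U.gen H q v0 hv m0
  have e1 := congrArg (JJ j) e
  simp only [map_add, map_mul, map_intCast] at e1
  refine ⟨A', B',
    { a := a, b := b, j := (RingOfIntegers.mapRingHom j).comp f.toRingHom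
      G := MulAction.stabilizer GQ _, c := c, Ω := v, η := φ.symm η
      act := act.comp f.toRingHom
      tp := fun m => if m0 : f m = 0 then 0 else tp _ m0
      el := el, neg := ?_
      inj := fun x y k => fi (q.inj (congrArg (fun z : 𝓞 Qb => io (z : Qb)) k))
      pid := .of_surjective φ.symm.toRingHom φ.symm.surjective
      im := (fw ▸ q.im : 0 < (JJ j (f ω)).im)
      mem := fun g => Iff.rfl
      cc := fun x => (hc x).symm
      Ω0 := v0
      eta := eη.trans (congrArg (JJ j · * v) (φ.apply_symm_apply η).symm)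
      e2 := (congrArg g2 L).trans e2
      e3 := (congrArg g3 L).trans e3
      uact := fun e z y u => (L ▸ (U.un _ _).2 (H (f e) z y ((U.un _ _).1 (L ▸ u))) :
        Un (La v (JJ j (f ω))) _ _)
      utp := fun m m0 => ?_ }, by simpa only [ne_comm] using ae⟩
  · have i := q.im
    have r := congrArg Complex.re e1
    have m := congrArg Complex.im e1
    simp at r m
    have : (b : ℝ) = 2 * (JJ j w).re := mul_right_cancel₀ i.ne' (by linarith)
    have : (b ^ 2 + 4 * a : ℝ) < 0 := by rw [this] at r ⊢; nlinarith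
    exact_mod_cast this
  · have m1 : f m ≠ 0 := (map_ne_zero_iff f fi).2 m0
    rw [dif_neg m1]
    exact (L ▸ (U.un _ _).2 (ht _ m1).1 : Un (La v (JJ j (f ω))) _ _)

end Vale.Agent.P014X
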