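import Vale.Agent.P014X.St0
import Vale.Agent.P014T.Kx.Tw
import Vale.Agent.P014T.Ba.H7

/-! # P014X: the twist of a curve with complex multiplication by its field (helper44) -/

set_option autoImplicit false
set_option linter.all false

open NumberField QuadraticAlgebra
open scoped Classical ComplexConjugate

noncomputable section

namespace Vale.Agent.P014X

open Vale.Agent.P022 (Qb GQ)
open P027H P027M.M
open P004M.TE (Pt ga al)
open P004K (Un)
open P014T.Kx.Tw

namespace Twc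

variable {A B : ℤ} (D : Cd A B)

/-- the discriminant -/
def dd : ℤ := D.b ^ 2 + 4 * D.a

theorem d0 : dd D ≠ 0 := D.neg.ne

/-- its square root -/
def de : ℂ := io (rt (dd D))

theorem de_sq : de D ^ 2 = dd D := by rw [de, ← map_pow, rt_sq, map_intCast]

theorem de_ne : de D ≠ 0 := (map_ne_zero io).2 (rt_ne (d0 D))

theorem de_cj : conj (de D) = -de D := by
  have a := congrArg Complex.re (de_sq D)
  have b := congrArg Complex.im (de_sq D)
  have c : (dd D : ℝ) < 0 := by exact_mod_cast D.neg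
  simp only [sq, Complex.mul_re, Complex.mul_im, Complex.intCast_re, Complex.intCast_im] at a b
  have e : (de D).re = 0 := by
    by_contra n
    have : (de D).im = 0 := mul_left_cancel₀ n (by linarith)
    rw [this] at a
    nlinarith [mul_self_nonneg (de D).re]
  exact Complex.ext (by simp [e]) (by simp)

/-- the twist -/
def ii : Pt A B ≃+ Pt (A * dd D ^ 2) (B * dd D ^ 3) := tw (tq (d0 D) A B)

theorem hom (Ω w : ℂ) : Hom (de D)⁻¹ (La Ω w) (La (Ω / de D) w) := by
  have := de_ne D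
  refine ⟨inv_ne_zero this, fun z => ?_⟩
  simp only [La, Submodule.mem_span_pair, zsmul_eq_mul]
  exact exists₂_congr fun a b => ⟨fun e => by rw [← e]; field_simp,
    fun e => mul_left_cancel₀ (inv_ne_zero this) (by rw [← e]; field_simp)⟩

theorem un_tw {Λ Λ' : Submodule ℤ ℂ} (H : Hom (de D)⁻¹ Λ Λ') (z : ℂ) (y : Pt A B) :
    Un Λ z y ↔ Un Λ' ((de D)⁻¹ * z) (ii D y) := by
  have n := de_ne D
  rw [Un, Un, ← H.2, H.wp, H.dwp, inv_inv, (ii D).map_eq_zero_iff]
  refine and_congr_right fun _ => imp_congr_right fun _ => ?_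
  rcases y with _ | ⟨x, y, h⟩
  · refine ⟨fun ⟨_, _, _, e, _⟩ => (nomatch e), fun ⟨_, _, _, e, _⟩ => ?_⟩
    exact nomatch (ii D).map_zero.symm.trans e
  obtain ⟨h', e⟩ := tw_some (tq (d0 D) A B) h
  have e1 : io ((dd D : Qb) * x) = de D ^ 2 * io x := by rw [map_mul, map_intCast, de_sq]
  have e2 : io ((dd D : Qb) * rt (dd D) * y) = de D ^ 3 * io y := by
    rw [map_mul, map_mul, map_intCast, ← de_sq, ← de, ← pow_succ]
  rw [ii, e]
  constructor
  · rintro ⟨_, _, _, ⟨⟩, a, b⟩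
    exact ⟨_, _, _, rfl, by rw [e1, a], by rw [e2, b, mul_div_assoc]⟩
  · rintro ⟨_, _, _, ⟨⟩, a, b⟩
    exact ⟨_, _, _, rfl, mul_left_cancel₀ (pow_ne_zero 2 n) (e1 ▸ a),
      mul_left_cancel₀ (pow_ne_zero 3 n) (by rw [← e2, b, mul_div_assoc])⟩

/-- transport of endomorphisms -/
def cj {M N : Type} [AddCommGroup M] [AddCommGroup N] (i : M ≃+ N) :
    AddMonoid.End M →+* AddMonoid.End N where
  toFun f := (i.toAddMonoidHom.comp f).comp i.symm.toAddMonoidHom
  map_one' := AddMonoidHom.ext i.apply_symm_apply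
  map_mul' f g := AddMonoidHom.ext fun x => by
    show i (f (g (i.symm x))) = i (f (i.symm (i (g (i.symm x)))))
    rw [i.symm_apply_apply]
  map_zero' := AddMonoidHom.ext fun _ => i.map_zero
  map_add' f g := AddMonoidHom.ext fun _ => i.map_add _ _

/-- the twisted datum -/
def tD : Cd (A * dd D ^ 2) (B * dd D ^ 3) where
  a := D.a
  b := D.b
  j := D.j
  G := D.G
  c := D.c
  Ω := D.Ω / de D
  η := -D.η
  act := (cj (ii D)).comp D.act
  tp m := ii D (D.tp m)
  el := (tq (d0 D) A B).hD D.el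
  neg := D.neg
  inj := D.inj
  pid := D.pid
  im := D.im
  mem := D.mem
  cc := D.cc
  Ω0 := div_ne_zero D.Ω0 (de_ne D)
  eta := by
    rw [map_div₀, D.eta, de_cj, map_neg]
    push_cast
    rw [map_neg]
    ring
  e2 := by
    rw [(hom D _ _).g2, D.e2, inv_inv]
    push_cast
    rw [← de_sq]
    ring
  e3 := by
    rw [(hom D _ _).g3, D.e3, inv_inv]
    push_cast
    rw [← de_sq]
    ring
  uact e z y h := by
    have n := de_ne D
    have := (un_tw D (hom D _ _) _ _).1 (D.uact e (de D * z) ((ii D).symm y)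
      ((un_tw D (hom D _ _) _ _).2 (by rwa [inv_mul_cancel_left₀ n, AddEquiv.apply_symm_apply])))
    rwa [mul_left_comm, inv_mul_cancel_left₀ n] at this
  utp m hm := by
    have := (un_tw D (hom D _ _) _ _).1 (D.utp m hm)
    rwa [← div_eq_inv_mul, div_right_comm] at this

theorem act_ii (x : D.O) (T : Pt A B) : (tD D).act x (ii D T) = ii D (D.act x T) := by
  show ii D (D.act x ((ii D).symm (ii D T))) = _
  rw [AddEquiv.symm_apply_apply]

theorem xc_ii (Q : Pt A B) : xc (ii D Q) = dd D * xc Q := by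
  rcases Q with _ | ⟨x, y, h⟩
  · exact (congrArg xc (ii D).map_zero).trans (mul_zero _).symm
  · obtain ⟨h', e⟩ := tw_some (tq (d0 D) A B) h
    rw [ii, e]
    rfl

theorem sd_iff (g : GQ) : P004F.sd (dd D) g = 1 ↔ g ∈ D.G := by
  have a : (D.j ω : Qb) * D.j ω = D.a + D.b * D.j ω := by
    have : (ω : D.O) * ω = (D.a : D.O) + (D.b : D.O) * ω := by ext <;> simp
    simpa using congrArg (fun x => (D.j x : Qb)) this
  rw [sd_eq_one, P004S.nu_eq_zero (w := 2 * D.j ω - D.b) (by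
    rw [dd]; push_cast; linear_combination 4 * a), D.mem, map_sub, map_mul, map_intCast,
    map_ofNat, sub_left_inj, mul_right_inj' two_ne_zero, RingOfIntegers.ext_iff]
  rfl

variable {D}

theorem not_dvd {n : ℤ} (h : (n : D.O) ∣ 1) : n ∣ 1 := by
  obtain ⟨x, e⟩ := h
  exact ⟨x.re, by simpa using congrArg QuadraticAlgebra.re e⟩

theorem ne0 {α : D.O} (h : IsCoprime α 6) : α ≠ 0 := by
  rintro rfl
  exact absurd (not_dvd (n := 6) (by exact_mod_cast (isCoprime_zero_left.1 h).dvd)) (by decide)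

theorem mul_ap (x y : D.O) (T : Pt A B) : D.act (x * y) T = D.act x (D.act y T) := by
  rw [map_mul]; rfl

theorem nat_ne {n : ℕ} (h : n ≠ 0) : (n : D.O) ≠ 0 := fun e =>
  h (by simpa using congrArg QuadraticAlgebra.re e)

theorem nm_nat (n : ℕ) : D.nm n = n ^ 2 := by
  rw [Cd.nm, QuadraticAlgebra.norm_natCast, Int.natAbs_pow, Int.natAbs_natCast]

/-- **uniqueness of the function** -/
theorem uniq (C : D.Cf) {α : D.O} (h : IsCoprime α 6) {Θ Θ' : Pt A B → Qb} (a : D.Th α Θ)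
    (b : D.Th α Θ') (Q : Pt A B) (hQ : D.act α Q ≠ 0) : Θ' Q = Θ Q := by
  have := D.inj.isDomain D.j
  obtain ⟨k, k0, e⟩ := a.eq
  obtain ⟨k', k0', e'⟩ := b.eq
  have z (Q) (hQ : D.act α Q ≠ 0) : Θ Q ≠ 0 := left_ne_zero_of_mul (e Q hQ ▸ k0)
  have r (Q) (hQ : D.act α Q ≠ 0) : Θ' Q = k' / k * Θ Q := by
    rw [← e Q hQ, ← e' Q hQ, mul_div_mul_right _ _ (right_ne_zero_of_mul (e Q hQ ▸ k0)),
      div_mul_cancel₀ _ (z Q hQ)]
  have s (n : ℕ) (n0 : n ≠ 0) (c : IsCoprime (n : D.O) α) : (k' / k) ^ n ^ 2 = k' / k := by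
    have b0 := nat_ne (D := D) n0
    have m := mul_ne_zero (ne0 h) b0
    have q : D.act (α * n) (D.tp (α * n * (2 : ℕ))) ≠ 0 := fun q => by
      have := (C.ker _ (mul_ne_zero m (nat_ne two_ne_zero)) _).1 q
      rw [← mul_one (α * n), mul_assoc _ 1, one_mul, mul_dvd_mul_iff_left m] at this
      exact absurd (not_dvd (n := 2) (by exact_mod_cast this)) (by decide)
    generalize D.tp _ = R at q
    have q' := mul_ap α n R ▸ q
    have := b.dis n b0 c R q
    rw [r _ q', Finset.prod_congr rfl fun T hT => r (R + T) fun t => q ?_, Finset.prod_mul_distrib,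
      a.dis n b0 c R q, Finset.prod_const, C.crd n b0, nm_nat] at this
    · exact mul_right_cancel₀ (z _ q') this
    · have := congrArg (D.act n) t
      rwa [map_zero, ← mul_ap, mul_comm, map_add, mul_ap α _ T, (C.tr n b0 T).1 hT, map_zero,
        add_zero] at this
  have h' : IsCoprime (((2 : ℕ) : D.O) * (3 : ℕ)) α := by
    have := h.symm
    rwa [show (6 : D.O) = (2 : ℕ) * (3 : ℕ) by norm_num] at this
  have s2 := s 2 two_ne_zero h'.of_mul_left_left
  have s3 := s 3 three_ne_zero h'.of_mul_left_right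
  have k1 := div_ne_zero k0' k0
  rw [r Q hQ]
  generalize k' / k = κ at *
  rw [show κ = 1 from mul_left_cancel₀ k1 (by
    linear_combination (1 + κ ^ 6 + κ ^ 3) * s2 - κ * s3), one_mul]

theorem th_ii (C : D.Cf) (C' : (tD D).Cf) {α : D.O} (h : α ≠ 0) {Θ : Pt _ _ → Qb}
    (a : (tD D).Th α Θ) : D.Th α fun Q => Θ (ii D Q) := by
  have t (m : D.O) (m0 : m ≠ 0) (T) : T ∈ D.tor m ↔ (ii D).toEquiv T ∈ (tD D).tor m := by
    rw [C.tr m m0, C'.tr m m0]
    exact (ii D).map_eq_zero_iff.symm.trans (act_ii D m T ▸ Iff.rfl)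
  have z {m : D.O} {Q} (q : D.act m Q ≠ 0) : (tD D).act m (ii D Q) ≠ 0 := by
    rwa [act_ii, Ne, (ii D).map_eq_zero_iff]
  obtain ⟨k, k0, e⟩ := a.eq
  have d : (dd D : Qb) ≠ 0 := Int.cast_ne_zero.2 (d0 D)
  refine ⟨⟨k / dd D ^ ((D.tor α).erase 0).card, div_ne_zero k0 (pow_ne_zero _ d), fun Q q => ?_⟩,
    fun β b0 c Q q => ?_⟩
  · rw [eq_div_iff (pow_ne_zero _ d), ← e _ (z q), mul_assoc, ← Finset.prod_const,
      ← Finset.prod_mul_distrib]
    refine congrArg _ (Finset.prod_equiv (ii D).toEquiv (fun T => ?_) fun T _ => ?_)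
    · rw [Finset.mem_erase, Finset.mem_erase, t α h]
      exact and_congr_left' (not_congr (ii D).map_eq_zero_iff.symm)
    · show _ = xc (ii D Q) - xc (ii D T)
      rw [xc_ii, xc_ii]
      ring
  · rw [← act_ii, ← a.dis β b0 c _ (z q)]
    exact Finset.prod_equiv (ii D).toEquiv (t β b0) fun T _ => congrArg Θ (map_add _ _ _)

theorem al_zero {N : ℕ} {ε : D.O → D.O} (C : D.Cf) (E : D.Ep N ε) {p : ℕ} [hp : Fact p.Prime]
    (c : p.Coprime N) (p2 : p ≠ 2) (l : legendreSym p (dd D) = -1) : al A B p = 0 := by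
  have := D.inj.isDomain D.j
  have : Finite D.Oˣ := .of_surjective (Subtype.val : rootsOfUnity 12 D.O → D.Oˣ) fun u =>
    ⟨⟨u, Units.ext (by simpa using C.un u u.isUnit)⟩, rfl⟩
  have a := E.an p c
  rw [Set.eq_empty_of_forall_notMem (s := {x : D.O | D.nm x = p}) fun x hx => ?_, finsum_mem_empty,
    mul_eq_zero, or_iff_right (nat_ne Nat.card_pos.ne')] at a
  · simpa using congrArg QuadraticAlgebra.re a
  have n : (2 * x.re + D.b * x.im) ^ 2 - dd D * x.im ^ 2 = 4 * x.norm := by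
    rw [norm_def, dd]
    simp only [Int.cast_id]
    ring
  have m : x.norm.natAbs = p := hx
  obtain ⟨u, v⟩ := legendreSym.prime_dvd_of_eq_neg_one l (x := 2 * x.re + D.b * x.im) (y := x.im)
    (n ▸ (Int.natCast_dvd.2 m.symm.dvd).mul_left 4)
  have := dvd_sub (pow_dvd_pow_of_dvd u 2) ((pow_dvd_pow_of_dvd v 2).mul_left (dd D))
  rw [n, ← Nat.cast_pow, Int.natCast_dvd, Int.natAbs_mul, m, sq,
    Nat.mul_dvd_mul_iff_right hp.out.pos] at this
  exact p2 ((Nat.prime_dvd_prime_iff_eq hp.out Nat.prime_two).1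
    (hp.out.dvd_of_dvd_pow (n := 2) this))

end Twc

open Twc in
/-- **the twist exists** -/
theorem twc (cf : CF) (cg : CG) (ep : EP) (eu : EU) : TWC := fun A B D => by
  have C := cf _ _ D
  have C' := cf _ _ (tD D)
  obtain ⟨N, G⟩ := cg _ _ D C
  obtain ⟨ε, E⟩ := ep _ _ D N C G
  have s (g : GQ) (T) : ga g (ii D T) = P004F.sd (dd D) g • ii D (ga g T) := ga_tw _ g T
  refine ⟨_, _, tD D, .refl _, ii D, fun _ => rfl, fun _ => rfl, rfl, rfl, rfl, act_ii D,
    fun _ _ => rfl, fun g h T => by rw [s, (sd_iff D g).2 h, one_smul], fun g h T => by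
      rw [s, (sd_or _ g).resolve_left (mt (sd_iff D g).1 h), neg_one_smul], fun α h Q q =>
    uniq C h ((eu _ _ D C).th α h) (th_ii C C' (ne0 h) ((eu _ _ _ C').th α h)) Q q, ?_⟩
  have n : N * (dd D).natAbs ≠ 0 := mul_ne_zero G.ne (Int.natAbs_ne_zero.2 (d0 D))
  refine (N * (dd D).natAbs).divisors.finite_toSet.subset fun p ⟨hp, h⟩ =>
    Nat.mem_divisors.2 ⟨by_contra fun k => h ?_, n⟩
  have := Fact.mk hp
  have k1 : ¬ p ∣ N := fun e => k (e.mul_right _)
  have k2 : ¬ (p : ℤ) ∣ dd D := fun e => k ((Int.natCast_dvd.1 e).mul_left _)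
  have k3 := mt (G.pf p hp).2 k1
  have k4 : ¬ (p : ℤ) ∣ 2 * (4 * A ^ 3 + 27 * B ^ 2) := fun e =>
    k3 (e.trans (mul_dvd_mul_right (by decide) _))
  rw [P014T.Ba.al_tw hp k4 k2, ← jacobiSym.legendreSym.to_jacobiSym]
  rcases legendreSym.eq_one_or_neg_one p (mt (ZMod.intCast_zmod_eq_zero_iff_dvd _ p).1 k2) with
    l | l
  · rw [l, one_mul]
  · rw [al_zero C E (hp.coprime_iff_not_dvd.2 k1) (fun e => k4 (by rw [e]; exact dvd_mul_right _ _)) l,
      mul_zero]

end Vale.Agent.P014X
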