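import Vale.Agent.P014X.Cm.Cf0

/-! # P014X: the determinant of the action on the torsion points is the cyclotomic character -/

set_option autoImplicit false
set_option linter.all false

open NumberField QuadraticAlgebra
open scoped Classical MatrixGroups

noncomputable section

namespace Vale.Agent.P014X.Cf0

open Vale.Agent.P022 (Qb GQ)
open P027H P027M.M P004K
open P004M.TE (Pt ga pa)

variable {A B : ℤ} (D : Cd A B)

theorem nm_cast (x : D.O) : (D.nm x : ℤ) = x.norm := Int.natAbs_of_nonneg (by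
  have := D.neg
  change 0 ≤ x.re * x.re + D.b * x.re * x.im - D.a * x.im * x.im
  nlinarith [sq_nonneg (2 * x.re + D.b * x.im), sq_nonneg x.im])

theorem nm_star (x : D.O) : (D.nm x : D.O) = x * star x := by
  rw [← algebraMap_norm_eq_mul_star, ← nm_cast]
  simp

theorem nm_mul (x y : D.O) : D.nm (x * y) = D.nm x * D.nm y := by
  rw [Cd.nm, map_mul, Int.natAbs_mul]
  rfl

theorem J_sp (x : D.O) : JH D x = (x.im : ℂ) * ta D + x.re := by
  conv_lhs => rw [sp D x]
  simp [ta, ← JH_eq, add_comm]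

theorem det : ∀ (n : ℕ) g β, n ≠ 0 → D.Ac n g β → ∀ z : Qb, z ^ n = 1 → g z = z ^ D.nm β := by
  intro n g β n0 a z hz
  have n1 := Nat.pos_of_ne_zero n0
  have n2 : (n : D.O) ≠ 0 := fun e => n0 (by exact_mod_cast congrArg QuadraticAlgebra.re e)
  have n3 : (n : ℂ) ≠ 0 := Nat.cast_ne_zero.2 n0
  have := D.Ω0
  obtain ⟨σ, e⟩ := ex_ex g
  obtain ⟨k, hk⟩ := ex_cy σ n1
  obtain ⟨τ', ψ, t, h1, h2⟩ := ((trx σ n n1).2 k hk).2 (ta D)
  obtain ⟨φ, t'⟩ := (uf D).tr σ
  obtain ⟨c, hc, u⟩ := t.uniq (((tp_tr t').homL (hom D)).homR (hom D).symm)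
  obtain ⟨γ, -, g2, g3⟩ := hom_lat hc
  have f (x : D.O) {w : ℂ} (h : ψ (JH D x / n) - w ∈ lat τ') :
      c * w - JH D (β * x) / n ∈ lat (ta D) := by
    have b := (uf D).gal e t' (hac D x _ _ (ex_tp D n2))
    rw [lin D g a.1, a.2, ← act_mul, mul_comm x, ← hac D _ _ _ (ex_tp D n2), (uf D).eq_iff,
      ← JH_eq, map_natCast, show JH D x * (D.Ω / n) = D.Ω * (JH D x / n) by ring] at b
    exact mem_of_eq (sub_mem (sub_mem (((hom D).symm.2 _).1 b) (u (JH D x / n))) ((hc.2 _).1 h))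
      (by field_simp; ring)
  obtain ⟨a1, a2⟩ := (div_lat (a := γ 0 0 - (β * ω).im) (b := γ 0 1 - (β * ω).re) n1).1
    (mem_of_eq (f ω h1) (by rw [J_sp]; push_cast; linear_combination (-(n : ℂ)⁻¹) * g3))
  obtain ⟨a3, a4⟩ := (div_lat (a := k * γ 1 0 - β.im) (b := k * γ 1 1 - β.re) n1).1
    (mem_of_eq (f 1 (by rwa [map_one])) (by
      rw [mul_one, J_sp]; push_cast; linear_combination (-(n : ℂ)⁻¹ * k) * g2))
  have d : (n : ℤ) ∣ k - D.nm β := by
    have := ((a1.mul_right (k * γ 1 1)).add (a4.mul_left (β * ω).im)).sub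
      ((a2.mul_right (k * γ 1 0)).add (a3.mul_left (β * ω).re))
    have h := γ.det_coe
    rw [Matrix.det_fin_two] at h
    refine this.trans (dvd_of_eq ?_)
    rw [nm_cast, norm_def]
    simp
    linear_combination k * h
  have : NeZero n := ⟨n0⟩
  obtain ⟨i, -, hi⟩ := (Pre.ze_prim n1).eq_pow_of_pow_eq_one (ξ := io z) (by
    rw [← map_pow, hz, map_one])
  refine P004K.io_inj ?_
  rw [← e, map_pow, ← hi, map_pow, hk, (ze_eq n1).2 d, Pre.ze_pow n (D.nm β), zpow_natCast,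
    ← pow_mul, ← pow_mul, mul_comm]

end Vale.Agent.P014X.Cf0
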