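import Vale.Agent.P014X.St0
import Vale.Agent.P014X.Rx.Cm0

/-! # P014X: torsion points of a curve with complex multiplication (half of the row `CF`) -/

set_option autoImplicit false
set_option linter.all false

open NumberField QuadraticAlgebra UpperHalfPlane
open scoped Classical ComplexConjugate

noncomputable section

namespace Vale.Agent.P014X.Cf0

open Vale.Agent.P022 (Qb GQ)
open P027H P027M.M P004K P004K.Rc
open P004M.TE (Pt ga Cv pa pa_inj ga_mul ga_one)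
open Cs (Uf)

variable {A B : ℤ} (D : Cd A B)

/-- the complex embedding -/
def JH : D.O →+* ℂ := ((io : Qb →+* ℂ).comp (algebraMap (𝓞 Qb) Qb)).comp D.j

theorem JH_eq (x : D.O) : JH D x = D.J x := rfl

theorem sp (x : D.O) : x = x.re + x.im * (ω : D.O) :=
  QuadraticAlgebra.ext (by simp) (by simp)

theorem om2 : (ω : D.O) * (ω : D.O) = (D.a : D.O) + (D.b : D.O) * (ω : D.O) :=
  QuadraticAlgebra.ext (by simp) (by simp)

theorem st_om : star (ω : D.O) = D.b - (ω : D.O) := QuadraticAlgebra.ext (by simp) (by simp)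

theorem st_sp (x : D.O) : star x = x.re + x.im * star (ω : D.O) :=
  QuadraticAlgebra.ext (by simp [mul_comm]) (by simp)

theorem qd : Qd (JH D) ω (starRingEnd D.O) := by
  have i : Function.Injective (JH D) := fun x y e => D.inj (RingOfIntegers.ext (P004K.io_inj e))
  obtain ⟨s, q⟩ := ex_qd i (fun x => ⟨_, _, sp D x⟩) D.im
  have a := congrArg s (om2 D)
  have n : s ω ≠ ω := fun e => q.im.ne' (Complex.conj_eq_iff_im.1 (by rw [← q.cj, e]))
  have := i.isDomain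
  have b : s ω = star ω := by
    simp only [map_mul, map_add, map_intCast] at a
    rw [st_om]
    exact mul_left_cancel₀ (sub_ne_zero.2 n) (by linear_combination a - om2 D)
  refine ⟨i, q.sp, q.im, fun x => ?_⟩
  rw [← q.cj, starRingEnd_apply, st_sp, ← b]
  conv_rhs => rw [sp D x]
  simp

theorem dom : IsDomain D.O := (qd D).inj.isDomain

theorem J_ne {m : D.O} (h : m ≠ 0) : D.J m ≠ 0 := (map_ne_zero_iff (JH D) (qd D).inj).2 h

theorem J_star (x : D.O) : D.J (star x) = conj (D.J x) := (qd D).cj x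

theorem mem_L {z : ℂ} : z ∈ D.L ↔ ∃ x, z = JH D x * D.Ω := by
  refine Submodule.mem_span_pair.trans ⟨fun ⟨a, b, e⟩ => ⟨a + b * (ω : D.O), ?_⟩,
    fun ⟨x, e⟩ => ⟨x.re, x.im, ?_⟩⟩
  · rw [← e, ← JH_eq]
    simp
    ring
  · rw [e, ← JH_eq]
    conv_rhs => rw [sp D x]
    simp
    ring

/-- the point of the half plane -/
def ta : ℍ := ⟨D.J ω, D.im⟩

theorem hom : Hom D.Ω (lat (ta D)) D.L := ⟨D.Ω0, fun z => by
  rw [mem_L, P027M.M.mem_lat]
  refine ⟨fun ⟨a, b, e⟩ => ⟨b + a * (ω : D.O), ?_⟩, fun ⟨x, e⟩ => ⟨x.im, x.re, ?_⟩⟩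
  · rw [← e]
    simp [ta, ← JH_eq]
    ring
  · rw [mul_left_cancel₀ D.Ω0 (e.trans (mul_comm _ _))]
    conv_rhs => rw [sp D x]
    simp [ta, ← JH_eq]
    ring⟩

theorem kl : KL (JH D) 1 D.L := ⟨(hom D).isLat (isLat _), fun a z h =>
  let ⟨x, e⟩ := (mem_L D).1 h
  (mem_L D).2 ⟨a * x, by simp [e, mul_assoc]⟩⟩

/-- the uniformisation -/
def ex : ℂ →+ (Cv ℂ (A : ℚ) (B : ℚ)).Point := (Cs.ex_uf (kl D).lat D.e2 D.e3).choose

theorem uf : Uf A B D.L (ex D) := (Cs.ex_uf (kl D).lat D.e2 D.e3).choose_spec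

theorem hac : Cs.Ac (JH D) (ex D) D.act := fun e z y h =>
  ((uf D).un _ _).1 (D.uact e z y (((uf D).un _ _).2 h))

theorem ex_tp {m : D.O} (h : m ≠ 0) : ex D (D.Ω / D.J m) = pa io (D.tp m) :=
  ((uf D).un _ _).1 (D.utp m h)

/-! ### the group -/

theorem smul_sp (g : GQ) (e : D.O) : g • D.j e = e.re + e.im * g • D.j ω := by
  have k (n : ℤ) : g • (n : 𝓞 Qb) = n := map_intCast (MulSemiringAction.toRingHom GQ (𝓞 Qb) g) n
  conv_lhs => rw [sp D e]
  simp [smul_mul', smul_add, k]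

theorem fix : ∀ g ∈ D.G, ∀ e, g • D.j e = D.j e := fun g h e => by
  rw [smul_sp, (D.mem g).1 h]
  conv_rhs => rw [sp D e]
  simp

theorem cj : ∀ g ∉ D.G, ∀ e, g • D.j e = D.j (star e) := fun g h e => by
  have a := congrArg (fun x => g • D.j x) (om2 D)
  have b := congrArg D.j (om2 D)
  rw [smul_sp D g (_ + _)] at a
  simp only [map_mul, map_add, map_intCast, smul_mul'] at a b
  have c : g • D.j ω = D.j (star ω) := by
    rw [st_om, map_sub, map_intCast]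
    refine mul_left_cancel₀ (sub_ne_zero.2 (mt (D.mem g).2 h)) ?_
    simp at a
    linear_combination a - b
  rw [smul_sp, c, st_sp D e]
  simp

theorem st_ne : D.j (star ω) ≠ D.j ω := fun e => D.im.ne' (Complex.conj_eq_iff_im.1
  ((J_star D ω).symm.trans (congrArg (fun x : 𝓞 Qb => io (x : Qb)) e)))

theorem c_j (e : D.O) : D.c • D.j e = D.j (star e) :=
  RingOfIntegers.ext (P004K.io_inj ((D.cc _).trans (J_star D e).symm))

theorem c_not : D.c ∉ D.G := fun h => st_ne D ((c_j D ω).symm.trans (fix D _ h ω))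

theorem nrm : D.G.Normal := ⟨fun g h k => (D.mem _).2 (by
  rw [mul_smul, mul_smul]
  by_cases n : k⁻¹ ∈ D.G
  · rw [fix D _ n, fix D g h, fix D k (inv_mem_iff.1 n)]
  · rw [cj D _ n, fix D g h, cj D k (mt inv_mem_iff.2 n), star_star])⟩

theorem opn : IsOpen (D.G : Set GQ) := by
  have : (D.G : Set GQ) = {g | g (D.j ω : Qb) = (1 : GQ) (D.j ω : Qb)} :=
    Set.ext fun g => (D.mem g).trans RingOfIntegers.ext_iff
  exact this ▸ P004M.TE.open_fix 1 _

theorem cG : ∀ g, g ∉ D.G ↔ g * D.c ∈ D.G := fun g => by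
  rw [D.mem (g * _), mul_smul, c_j]
  exact ⟨fun h => by rw [cj D g h, star_star], fun h k => st_ne D ((fix D g k _).symm.trans h)⟩

theorem c2 : D.c * D.c = 1 := AlgEquiv.ext fun x => P004K.io_inj (by
  rw [AlgEquiv.mul_apply, D.cc, D.cc, Complex.conj_conj]; rfl)

theorem lin : ∀ g ∈ D.G, ∀ e T, ga g (D.act e T) = D.act e (ga g T) := fun g h e T =>
  let ⟨_, k⟩ := ex_ex g
  (uf D).act_ga (hac D) (kl D) k ((k _).trans (congrArg (fun x : 𝓞 Qb => io (x : Qb))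
    (fix D g h e))) T

theorem sem : ∀ g ∉ D.G, ∀ e T, ga g (D.act e T) = D.act (star e) (ga g T) := fun g h e T =>
  let ⟨_, k⟩ := ex_ex g
  (uf D).act_ga (hac D) (kl D) k ((k _).trans (congrArg (fun x : 𝓞 Qb => io (x : Qb))
    (cj D g h e))) T

theorem un : ∀ e : D.O, IsUnit e → e ^ 12 = 1 := fun _ h =>
  have := dom D
  Cs.unit_pow (qd D) h

theorem eu : IsUnit D.η := by
  have a : conj D.Ω = D.J D.η * D.Ω := D.eta
  have b := congrArg conj a
  rw [Complex.conj_conj, map_mul, a, ← J_star] at b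
  refine .of_mul_eq_one (star D.η) ((qd D).inj (mul_right_cancel₀ D.Ω0 ?_))
  rw [map_mul, map_one, JH_eq, JH_eq]
  linear_combination -b

/-! ### the points -/

theorem act_mul (x y : D.O) (T : Pt A B) : D.act (x * y) T = D.act x (D.act y T) := by
  rw [map_mul]
  rfl

theorem act_one (T : Pt A B) : D.act 1 T = T := by
  rw [map_one]
  rfl

theorem act_sub (x y : D.O) (T : Pt A B) : D.act (x - y) T = D.act x T - D.act y T := by
  rw [map_sub]
  rfl

theorem kg {m : D.O} (h : m ≠ 0) : (∀ x, D.act x (D.tp m) = 0 ↔ m ∣ x) ∧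
    ∀ T, D.act m T = 0 → ∃ x, D.act x (D.tp m) = T := by
  have := dom D
  obtain ⟨T, a, b⟩ := (uf D).gen (hac D) (qd D) D.Ω0 (fun _ => mem_L D) h
  rwa [pa_inj io (a.symm.trans (ex_tp D h))] at b

theorem ker : ∀ m ≠ 0, ∀ x, D.act x (D.tp m) = 0 ↔ m ∣ x := fun _ h => (kg D h).1

theorem act_eq {m : D.O} (h : m ≠ 0) {x y : D.O} :
    D.act x (D.tp m) = D.act y (D.tp m) ↔ m ∣ x - y := by rw [← ker D m h, act_sub, sub_eq_zero]

theorem zero_iff {m : D.O} (h : m ≠ 0) {T : Pt A B} :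
    D.act m T = 0 ↔ ∃ x, T = D.act x (D.tp m) :=
  ⟨fun k => ((kg D h).2 T k).imp fun _ => Eq.symm, fun ⟨x, e⟩ => by
    rw [e, ← act_mul, ker D m h]; exact dvd_mul_right _ _⟩

theorem card_q (m : D.O) : Nat.card (D.O ⧸ Ideal.span {m}) = D.nm m := by
  have := dom D
  have := D.pid
  rw [← Submodule.cardQuot_apply, ← Ideal.absNorm_apply, Ideal.absNorm_span_singleton,
    Algebra.norm_apply]
  exact congrArg _ (det_toLinearMap_eq_norm m)

theorem nm_ne {m : D.O} (h : m ≠ 0) : D.nm m ≠ 0 := by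
  have := dom D
  refine Int.natAbs_ne_zero.2 fun e => mul_ne_zero h (star_ne_zero.2 h) ?_
  rw [← algebraMap_norm_eq_mul_star, e, map_zero]

theorem card_t {m : D.O} (h : m ≠ 0) : Nat.card {T | D.act m T = 0} = D.nm m := by
  rw [← card_q]
  refine (Nat.card_eq_of_bijective (Quotient.lift (fun x =>
    (⟨D.act x (D.tp m), (zero_iff D h).2 ⟨x, rfl⟩⟩ : {T | D.act m T = 0})) fun x y e =>
      Subtype.ext ((act_eq D h).2 (Ideal.mem_span_singleton.1 ((Submodule.quotientRel_def _).1 e))))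
    ⟨?_, fun ⟨T, k⟩ => let ⟨x, e⟩ := (zero_iff D h).1 k; ⟨.mk _ x, Subtype.ext e.symm⟩⟩).symm
  rintro ⟨x⟩ ⟨y⟩ e
  exact Ideal.Quotient.eq.2 (Ideal.mem_span_singleton.2 ((act_eq D h).1 (congrArg Subtype.val e)))

theorem fin_t {m : D.O} (h : m ≠ 0) : {T | D.act m T = 0}.Finite :=
  Nat.finite_of_card_ne_zero (card_t D h ▸ nm_ne D h)

theorem tr : ∀ m ≠ 0, ∀ T, T ∈ D.tor m ↔ D.act m T = 0 := fun m h T => by
  rw [Cd.tor, dif_pos (fin_t D h), Set.Finite.mem_toFinset]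
  rfl

theorem gen : ∀ m ≠ 0, ∀ T, T ∈ D.tor m ↔ ∃ x, T = D.act x (D.tp m) := fun m h T =>
  (tr D m h T).trans (zero_iff D h)

theorem crd : ∀ m ≠ 0, (D.tor m).card = D.nm m := fun m h => by
  rw [Cd.tor, dif_pos (fin_t D h), ← card_t D h, Nat.card_eq_card_finite_toFinset]

theorem dv : ∀ m ≠ 0, ∀ m' ≠ 0, D.act m' (D.tp (m * m')) = D.tp m := fun m h m' h' => by
  have := dom D
  have := J_ne D h
  have := J_ne D h'
  refine pa_inj io ((hac D m' _ _ (ex_tp D (mul_ne_zero h h'))).symm.trans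
    (.trans (congrArg _ ?_) (ex_tp D h)))
  rw [← JH_eq D (_ * _), map_mul, JH_eq, JH_eq]
  field_simp

theorem cj_L : cjL D.L = D.L := by
  have k {z} (h : z ∈ D.L) : conj z ∈ D.L :=
    let ⟨x, e⟩ := (mem_L D).1 h
    (mem_L D).2 ⟨star x * D.η, by
      rw [e, map_mul, map_mul, D.eta, JH_eq, JH_eq, JH_eq, J_star, mul_assoc]; rfl⟩
  exact Submodule.ext fun z => ⟨fun h => by simpa using k (mem_cjL.1 h), k⟩

theorem ctp : ∀ m ≠ 0, ga D.c (D.tp m) = D.act D.η (D.tp (star m)) := fun m h => by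
  have t := (tq_cj (kl D).lat).tr1
  rw [cj_L] at t
  refine pa_inj io (((uf D).gal (σ := starRingAut) (fun a => (D.cc a).symm) t
    (ex_tp D h)).symm.trans (.trans (congrArg _ ?_) (hac D _ _ _ (ex_tp D (star_ne_zero.2 h)))))
  rw [map_div₀, D.eta, J_star, mul_div_assoc]
  rfl

/-! ### the action on the points of order `m` -/

variable {D} {m β β' : D.O} {g g' : GQ}

theorem ac_mul (a : D.Ac m g β) (a' : D.Ac m g' β') : D.Ac m (g * g') (β * β') :=
  ⟨mul_mem a.1 a'.1, by rw [ga_mul, a'.2, lin D g a.1, a.2, ← act_mul, mul_comm]⟩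

theorem ac_one : D.Ac m 1 1 := ⟨one_mem _, by rw [ga_one, act_one]⟩

theorem ac_uniq (h : m ≠ 0) (a : D.Ac m g β) (a' : D.Ac m g β') : m ∣ β - β' :=
  (act_eq D h).1 (a.2.symm.trans a'.2)

theorem ac_congr (h : m ≠ 0) (a : D.Ac m g β) (d : m ∣ β - β') : D.Ac m g β' :=
  ⟨a.1, a.2.trans ((act_eq D h).2 d)⟩

theorem ac_all (h : m ≠ 0) (a : D.Ac m g β) {T : Pt A B} (k : D.act m T = 0) :
    ga g T = D.act β T := by
  obtain ⟨x, rfl⟩ := (zero_iff D h).1 k
  rw [lin D g a.1, a.2, ← act_mul, ← act_mul, mul_comm]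

theorem ac_ex (h : m ≠ 0) (k : g ∈ D.G) : ∃ β, D.Ac m g β :=
  ((zero_iff D h).1 (by rw [← lin D g k, (ker D m h m).2 dvd_rfl, map_zero])).imp fun _ e => ⟨k, e⟩

theorem ac_inv (h : m ≠ 0) (a : D.Ac m g β) (d : m ∣ β * β' - 1) : D.Ac m g⁻¹ β' := by
  obtain ⟨γ, b⟩ := ac_ex h (inv_mem a.1)
  have c := ac_mul a b
  rw [mul_inv_cancel] at c
  refine ac_congr h b ?_
  have := ((ac_uniq h c ac_one).mul_left β').sub (d.mul_left γ)
  rwa [show β' * (β * γ - 1) - γ * (β * β' - 1) = γ - β' by ring] at this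

variable (D)

theorem ac : ∀ m ≠ 0, ∀ g ∈ D.G, ∃ β, IsCoprime β m ∧ D.Ac m g β := fun m h g k => by
  obtain ⟨β, a⟩ := ac_ex h k
  obtain ⟨γ, b⟩ := ac_ex h (inv_mem k)
  have c := ac_mul a b
  rw [mul_inv_cancel] at c
  obtain ⟨x, e⟩ := ac_uniq h c ac_one
  exact ⟨β, ⟨γ, -x, by linear_combination e⟩, a⟩

theorem hm : ∀ m ≠ 0, ∀ g, g ∈ D.Hm m ↔ ∃ ζ, IsUnit ζ ∧ D.Ac m g ζ := fun m h g => by
  refine ⟨fun k => ?_, fun k => Subgroup.subset_closure k⟩
  induction k using Subgroup.closure_induction with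
  | mem x k => exact k
  | one => exact ⟨1, isUnit_one, ac_one⟩
  | mul x y _ _ a b =>
    obtain ⟨ζ, u, a⟩ := a
    obtain ⟨ζ', u', b⟩ := b
    exact ⟨_, u.mul u', ac_mul a b⟩
  | inv x _ a =>
    obtain ⟨_, ⟨ζ, rfl⟩, a⟩ := a
    exact ⟨_, ζ⁻¹.isUnit, ac_inv h a (by simp)⟩

theorem open_pt (T : Pt A B) : IsOpen {g : GQ | ga g T = T} := by
  rcases T with _ | ⟨x, y, h⟩
  · exact (Set.eq_univ_of_forall fun g => map_zero (ga g)).symm ▸ isOpen_univ
  · have : {g : GQ | ga g (.some x y h : Pt A B) = .some x y h} =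
        {g : GQ | g x = (1 : GQ) x} ∩ {g : GQ | g y = (1 : GQ) y} := Set.ext fun g => by
      simp [P004M.TE.ga_some]
    exact this ▸ (P004M.TE.open_fix 1 x).inter (P004M.TE.open_fix 1 y)

theorem oH : ∀ m ≠ 0, IsOpen (D.Hf m : Set GQ) := fun m _ => (opn D).inter (open_pt (D.tp m))

theorem mem_Hf {m : D.O} {g : GQ} : g ∈ D.Hf m ↔ D.Ac m g 1 :=
  and_congr_right fun _ => by rw [act_one]; rfl

end Vale.Agent.P014X.Cf0
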