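import Vale.Agent.P014X.St0
import Vale.Agent.P014X.Cm.Red
import Vale.Agent.P014X.Rx.Ray

/-! # P014X: from the datum to a number field -/

set_option autoImplicit false
set_option linter.all false

open NumberField QuadraticAlgebra
open scoped Classical

noncomputable section

namespace Vale.Agent.P014X.Bg

open Vale.Agent.P022 P027H P004K P004K.Rc Cs
open P027M.M (io)
open P004M.TE (Pt ga Cv pa pa_inj)

variable {A B : ℤ} (D : Cd A B)

theorem sp (x : D.O) : x = x.re + x.im * (ω : D.O) := by ext <;> simp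

theorem om : (ω : D.O) * (ω : D.O) = D.a + D.b * (ω : D.O) := by ext <;> simp

theorem st_om : star (ω : D.O) = D.b - (ω : D.O) := by ext <;> simp

theorem dom : IsDomain D.O := D.inj.isDomain D.j

theorem hom_ext {R : Type} [Ring R] {f g : D.O →+* R} (h : f ω = g ω) (x : D.O) : f x = g x := by
  rw [sp D x]
  simp only [map_add, map_mul, map_intCast, h]

/-- the order is the ring of integers of `K` -/
structure Br {K : Type} [Field K] [NumberField K] (j : K →+* Qb) (e : D.O ≃+* 𝓞 K)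
    (s : 𝓞 K →+* 𝓞 K) (ex : ℂ →+ (Cv ℂ (A : ℚ) (B : ℚ)).Point) : Prop where
  dt : Dt j (e ω) s D.L D.Ω ex (D.act.comp e.symm.toRingHom)
  ej : ∀ x, RingOfIntegers.mapRingHom j (e x) = D.j x
  st : ∀ x, e (star x) = s (e x)
  G : D.G = GK j
  nm : ∀ x, Ideal.absNorm (Ideal.span {e x}) = D.nm x

theorem ex_e : ∃ (K : Type) (_ : Field K) (_ : NumberField K) (j : K →+* Qb) (e : D.O ≃+* 𝓞 K),
    Iq K ∧ ∀ x, RingOfIntegers.mapRingHom j (e x) = D.j x := by
  have e0 : D.J ω * D.J ω = D.a + D.b * D.J ω := by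
    have := congrArg (fun x => io (D.j x : Qb)) (om D)
    simp only [map_mul, map_add, map_intCast] at this
    exact this
  obtain ⟨K, _, _, j, x, hK, ex⟩ := Cm.ex_iq (α := D.J ω) D.im.ne' (t := D.b) (d := -D.a) (by
    push_cast
    linear_combination e0)
  let f : D.O →+* 𝓞 K := (lift ⟨x, JJ_inj j (by
    simp only [map_mul, map_add, zsmul_eq_mul, map_intCast, map_one, ex, Int.cast_id, mul_one]
    exact e0)⟩).toRingHom
  have f0 : f ω = x := by simp [f]
  have ej : ∀ y, RingOfIntegers.mapRingHom j (f y) = D.j y :=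
    hom_ext D (f := (RingOfIntegers.mapRingHom j).comp f)
      (RingOfIntegers.ext (P004K.io_inj (by rw [RingHom.comp_apply, f0]; exact ex)))
  have fi : Function.Injective f := fun y z e => D.inj (by rw [← ej, ← ej, e])
  refine ⟨K, _, _, j, .ofBijective f ⟨fi, fun y => ?_⟩, hK, ej⟩
  have := dom D
  have := D.pid
  obtain ⟨w, s, q⟩ := qd j hK
  obtain ⟨u, v, rfl⟩ := q.sp x
  have v0 : v ≠ 0 := fun c => D.im.ne' (by
    rw [show io (D.j ω : Qb) = _ from ex.symm, c]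
    simp)
  obtain ⟨t, e1⟩ := q.tr y
  obtain ⟨n, e2⟩ := q.nm y
  obtain ⟨u', v', e3⟩ := q.sp y
  have e4 : f (v * u' - v' * u + v' * (ω : D.O)) = v * y := by
    simp only [map_mul, map_add, map_sub, map_intCast, f0]
    linear_combination -(v : 𝓞 K) * e3
  obtain ⟨z, e5⟩ := Qd.quad_dvd (x := v * u' - v' * u + v' * (ω : D.O)) (n := v) (t := t) (d := n)
    (Int.cast_ne_zero.2 v0) (fi (by
      rw [map_sub, map_pow, map_mul, map_mul, map_mul, map_pow, e4]
      simp only [map_intCast]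
      linear_combination (v : 𝓞 K) ^ 2 * y * e1 - (v : 𝓞 K) ^ 2 * e2))
  rw [e5, map_mul, map_intCast] at e4
  exact ⟨z, mul_left_cancel₀ (Int.cast_ne_zero.2 v0) e4⟩

/-- **the bridge** -/
theorem ex_br : ∃ (K : Type) (_ : Field K) (_ : NumberField K) (j : K →+* Qb) (e : D.O ≃+* 𝓞 K)
    (s : 𝓞 K →+* 𝓞 K) (ex : ℂ →+ (Cv ℂ (A : ℚ) (B : ℚ)).Point), Br D j e s ex := by
  obtain ⟨K, _, _, j, e, hK, ej⟩ := ex_e D
  have eJ : ∀ x, JJ j (e x) = D.J x := fun x => congrArg (fun y : 𝓞 Qb => io (y : Qb)) (ej x)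
  have s0 : ∀ a : 𝓞 K, ∃ u v : ℤ, a = u + v * e ω := fun a => ⟨(e.symm a).re, (e.symm a).im, by
    simpa using congrArg e (sp D (e.symm a))⟩
  obtain ⟨s, q⟩ := ex_qd (JJ_inj j) s0 ((eJ ω).symm ▸ D.im)
  have mL : ∀ z, z ∈ D.L ↔ ∃ x, z = JJ j x * D.Ω := fun z => by
    rw [Cd.L, La, Submodule.mem_span_pair, ← eJ]
    constructor
    · rintro ⟨u, v, rfl⟩
      exact ⟨u + v * e ω, by simp only [map_add, map_mul, map_intCast, zsmul_eq_mul]; ring⟩
    · rintro ⟨x, rfl⟩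
      obtain ⟨u, v, rfl⟩ := s0 x
      exact ⟨u, v, by simp only [map_add, map_mul, map_intCast, zsmul_eq_mul]; ring⟩
  have kl : KL (JJ j) 1 D.L := hom_kl (μ := D.Ω) ⟨D.Ω0, fun z => by
    rw [mem_Oc, mL]
    exact exists_congr fun x => by
      rw [mul_comm, mul_left_inj' D.Ω0, eq_comm]
      exact and_iff_right ⟨0, x, by simp⟩⟩ (q.kl_Oc one_pos)
  obtain ⟨ex, U⟩ := ex_uf kl.lat D.e2 D.e3
  refine ⟨K, _, _, j, e, s, ex, ⟨U, fun a z y h => ?_, hK, q, kl, D.Ω0, mL⟩, ej, ?_, ?_, fun x => ?_⟩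
  · obtain ⟨a, rfl⟩ := e.surjective a
    rw [eJ, RingHom.comp_apply, show e.symm.toRingHom (e a) = a from e.symm_apply_apply a]
    exact (U.un _ _).1 (D.uact a z y ((U.un _ _).2 h))
  · refine hom_ext D (f := e.toRingHom.comp (starRingEnd D.O)) (g := s.comp e.toRingHom) ?_
    show e (star ω) = s (e ω)
    obtain ⟨t, e1⟩ := q.tr (e ω)
    obtain ⟨n, e2⟩ := q.nm (e ω)
    have e3 := congrArg e (om D)
    simp only [map_mul, map_add, map_intCast] at e3
    obtain ⟨-, rfl⟩ := q.ext (u := -n) (v := t) (u' := D.a) (v' := D.b) (by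
      push_cast
      linear_combination e3 + e2 - e ω * e1)
    rw [st_om, map_sub, map_intCast, ← e1, add_sub_cancel_left]
  · ext g
    rw [D.mem, ← ej]
    refine ⟨fun h k => ?_, fun h => RingOfIntegers.ext (h _)⟩
    have h' : g (j (e ω)) = j (e ω) := congrArg Subtype.val h
    refine DFunLike.congr_fun (IsLocalization.ringHom_ext (nonZeroDivisors (𝓞 K))
      (j := (g : Qb →+* Qb).comp j) (k := j) (RingHom.ext fun a => ?_)) k
    obtain ⟨u, v, rfl⟩ := s0 a
    simp only [map_add, map_mul, map_intCast]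
    exact congrArg (fun x : Qb => u + v * x) h'
  · rw [Ideal.absNorm_span_singleton, Cd.nm, ← det_toLinearMap_eq_norm]
    exact congrArg _ (Algebra.norm_eq_of_algEquiv
      (AlgEquiv.ofRingEquiv (f := e) fun x => map_intCast e x) x)

namespace Br

variable {D} {K : Type} [Field K] [NumberField K] {j : K →+* Qb} {e : D.O ≃+* 𝓞 K}
  {s : 𝓞 K →+* 𝓞 K} {ex : ℂ →+ (Cv ℂ (A : ℚ) (B : ℚ)).Point} (b : Br D j e s ex)
  {m π x : D.O} {P : Ideal (𝓞 Qb)} {g : GQ}

theorem act (e : D.O ≃+* 𝓞 K) (x : D.O) : D.act.comp e.symm.toRingHom (e x) = D.act x :=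
  congrArg D.act (e.symm_apply_apply x)

include b

theorem eJ (x : D.O) : JJ j (e x) = D.J x := congrArg (fun y : 𝓞 Qb => io (y : Qb)) (b.ej x)

theorem mem : e x ∈ below j P ↔ D.j x ∈ P := by rw [← b.ej]; rfl

theorem tp (m0 : m ≠ 0) : (∀ x, D.act x (D.tp m) = 0 ↔ m ∣ x) ∧
    ∀ y, D.act m y = 0 → ∃ x, D.act x (D.tp m) = y := by
  obtain ⟨T, a, c, d⟩ := b.dt.gen (m := e m) (by simpa using m0)
  obtain rfl : T = D.tp m := pa_inj io (a.symm.trans (b.eJ m ▸ (b.dt.uf.un _ _).1 (D.utp m m0)))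
  exact ⟨fun x => by rw [← act e, c, map_dvd_iff], fun y h =>
    let ⟨x, k⟩ := d y (act e m ▸ h)
    ⟨_, k⟩⟩

theorem ac (m0 : m ≠ 0) : D.Ac m g x ↔ g ∈ GK j ∧ Rh (D.act.comp e.symm.toRingHom) (e m) g (e x) := by
  rw [Cd.Ac, b.G]
  refine and_congr_right fun hg => ⟨fun k => b.dt.of_gen hg (fun y h => ?_) (act e x ▸ k), fun k => ?_⟩
  · obtain ⟨x, k⟩ := (b.tp m0).2 y (act e m ▸ h)
    exact ⟨e x, act e x ▸ k⟩
  · exact act e x ▸ k _ (act e m ▸ ((b.tp m0).1 m).2 dvd_rfl)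

theorem bl (p : Prime π) (hP : P.IsPrime) (h : D.j π ∈ P) : below j P = Ideal.span {e π} := by
  have p' : Prime (e π) := (MulEquiv.prime_iff e).2 p
  exact ((((Ideal.span_singleton_prime p'.ne_zero).2 p').isMaximal (by simpa using p.ne_zero)).eq_of_le
    (hP.comap _).ne_top ((Ideal.span_singleton_le_iff_mem _).2 (b.mem.2 h))).symm

end Br

end Vale.Agent.P014X.Bg
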