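import Vale.Agent.P014X.St0
import Mathlib.Algebra.QuadraticAlgebra.NormDeterminant

/-! # P014X: the order as the ring of integers of a number field -/

set_option autoImplicit false
set_option linter.all false

open NumberField QuadraticAlgebra
open scoped Classical

noncomputable section

namespace Vale.Agent.P014X.Cd

open Vale.Agent.P022 (Qb GQ GK below)
open P027H P027M.M

variable {A B : ℤ} (D : Cd A B)

theorem dom : IsDomain D.O := D.inj.isDomain _

theorem dec (x : D.O) : x = (x.re : D.O) + (x.im : D.O) * ω := by ext <;> simp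

theorem chz : CharZero D.O := ⟨fun m n h => by simpa using congrArg QuadraticAlgebra.re h⟩

theorem memG {g : GQ} : g ∈ D.G ↔ ∀ x, g • D.j x = D.j x := by
  refine (D.mem g).trans ⟨fun h x => ?_, fun h => h _⟩
  rw [D.dec x]
  simp only [map_add, map_mul, map_intCast, smul_add, smul_mul', h]
  rw [← MulSemiringAction.toRingHom_apply, ← MulSemiringAction.toRingHom_apply, map_intCast,
    map_intCast]

/-- `K` is the field of fractions of the order -/
structure Br (K : Type) [Field K] [NumberField K] (j : K →+* Qb) (e : D.O ≃+* 𝓞 K) : Prop where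
  je : ∀ x, RingOfIntegers.mapRingHom j (e x) = D.j x
  G : GK j = D.G
  iq : P004K.Iq K
  nm : ∀ x, Ideal.absNorm (Ideal.span {e x}) = D.nm x

theorem brg0 (K : Type) [Field K] [Algebra D.O K] [IsFractionRing D.O K] :
    ∃ (_ : NumberField K) (j : K →+* Qb) (e : D.O ≃+* 𝓞 K), D.Br K j e := by
  have := D.dom
  have := D.pid
  have := D.chz
  have : CharZero K := IsFractionRing.charZero_of_isFractionRing D.O
  have : FiniteDimensional ℚ K := Module.Finite.of_isLocalization ℤ D.O (nonZeroDivisors ℤ)
  have : NumberField K := {}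
  have i : Function.Injective ((algebraMap (𝓞 Qb) Qb).comp D.j) :=
    RingOfIntegers.coe_injective.comp D.inj
  let j : K →+* Qb := IsFractionRing.lift i
  let e : D.O ≃+* 𝓞 K := (RingOfIntegers.equiv D.O).symm
  have k : ∀ x, ((e x : 𝓞 K) : K) = algebraMap D.O K x := fun x =>
    IsIntegralClosure.algebraMap_equiv ℤ D.O K (𝓞 K) x
  have l : ∀ x, j (algebraMap D.O K x) = D.j x := fun x => IsFractionRing.lift_algebraMap i x
  refine ⟨inferInstance, j, e, fun x => ?_, ?_, ⟨?_, ⟨fun φ => ?_⟩⟩, fun x => ?_⟩
  · exact RingOfIntegers.ext ((congrArg j (k x)).trans (l x))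
  · ext g
    rw [D.memG]
    refine ⟨fun h x => RingOfIntegers.ext ?_, fun h x => ?_⟩
    · have := h (algebraMap D.O K x)
      rw [l] at this
      exact this
    · obtain ⟨a, b, -, rfl⟩ := IsFractionRing.div_surjective (A := D.O) x
      have t : ∀ y, g (D.j y : Qb) = D.j y := fun y => congrArg (fun z : 𝓞 Qb => (z : Qb)) (h y)
      rw [map_div₀, map_div₀, l, l, t, t]
  · rw [← RingOfIntegers.rank, ← e.toAddEquiv.toIntLinearEquiv.finrank_eq, finrank_eq_two]
  · have h := congrArg (φ.comp (algebraMap D.O K)) (omega_mul_omega_eq_add (a := (D.a : ℤ)) (b := (D.b : ℤ)))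
    have n : (D.b : ℝ) ^ 2 + 4 * D.a < 0 := by exact_mod_cast D.neg
    simp only [map_mul, map_add, zsmul_eq_mul, map_intCast, map_one, Int.cast_id] at h
    nlinarith [sq_nonneg (2 * (φ.comp (algebraMap D.O K)) ω - D.b)]
  · rw [Ideal.absNorm_span_singleton, nm, ← det_toLinearMap_eq_norm]
    exact congrArg Int.natAbs (Algebra.norm_eq_of_algEquiv e.toIntAlgEquiv x)

theorem brg : ∃ (K : Type) (_ : Field K) (_ : NumberField K) (j : K →+* Qb) (e : D.O ≃+* 𝓞 K),
    D.Br K j e :=
  have := D.dom
  ⟨FractionRing D.O, inferInstance, D.brg0 _⟩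

end Vale.Agent.P014X.Cd
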