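import Vale.Agent.P014X.Cm.Red
import Vale.Agent.P014T.Ht.Sh
import Vale.Agent.P004K.Gm.Jh

/-! # P014X: the word for complex multiplication -/

set_option autoImplicit false
set_option linter.all false

open NumberField

noncomputable section

namespace Vale.Agent.P014X.Cm

open Vale.Agent.P022 P027H P004K P004K.Rc
open P004M.TE (al)
open P014T.Sm (Md)

/-- **complex multiplication**: the period lattice of `E` has a multiplier which is not an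
integer -/
def HasCM (E : WeierstrassCurve ℚ) : Prop := ∃ (L : PeriodPair) (α : ℂ),
  L.g₂ = (E.c₄ : ℂ) / 12 ∧ L.g₃ = (E.c₆ : ℂ) / 216 ∧ (∀ n : ℤ, α ≠ n) ∧
    ∀ z ∈ L.lattice, α * z ∈ L.lattice

/-- the same with the invariant `j` -/
def HasCMj (E : WeierstrassCurve ℚ) [E.IsElliptic] : Prop := ∃ (L : PeriodPair) (α : ℂ),
  1728 * L.g₂ ^ 3 / (L.g₂ ^ 3 - 27 * L.g₃ ^ 2) = (E.j : ℚ) ∧ (∀ n : ℤ, α ≠ n) ∧
    ∀ z ∈ L.lattice, α * z ∈ L.lattice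

theorem im_ne {Λ : Submodule ℤ ℂ} (h : IsLat Λ) {α : ℂ} (n : ∀ n : ℤ, α ≠ n)
    (k : ∀ z ∈ Λ, α * z ∈ Λ) : α.im ≠ 0 := fun e => by
  obtain ⟨L, rfl⟩ := h
  obtain ⟨a, b, e1⟩ := PeriodPair.mem_lattice.1 (k _ L.ω₁_mem_lattice)
  have r : (α.re : ℂ) = α := Complex.ext rfl (by simp [e])
  have := (LinearIndependent.pair_iff.1 L.indep (a - α.re) b (by
    simp only [Complex.real_smul]
    push_cast
    rw [r]
    linear_combination e1)).1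
  exact n a (by rw [← r, ← sub_eq_zero.1 this]; simp)

variable {E : WeierstrassCurve ℚ} {A B : ℤ} {u r s t : ℚ}

theorem lat_md (m : Md E A B u r s t) {Λ : Submodule ℤ ℂ} (h2 : g2 Λ = (E.c₄ : ℂ) / 12)
    (h3 : g3 Λ = (E.c₆ : ℂ) / 216) : ∃ Λ', Hom (u : ℂ)⁻¹ Λ Λ' ∧ g2 Λ' = -4 * A ∧ g3 Λ' = -4 * B := by
  obtain ⟨-, -, -, a, b⟩ := m.eq
  have H := hom_scl (inv_ne_zero (Rat.cast_ne_zero.2 m.ne : (u : ℂ) ≠ 0)) Λ
  have a' := congrArg (Rat.cast : ℚ → ℂ) a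
  have b' := congrArg (Rat.cast : ℚ → ℂ) b
  push_cast at a' b'
  exact ⟨_, H, by rw [H.g2, inv_inv, h2, a']; ring, by rw [H.g3, inv_inv, h3, b']; ring⟩

theorem HasCMj.cm [E.IsElliptic] (c : HasCMj E) : HasCM E := by
  obtain ⟨L, α, e, n, k⟩ := c
  have d : (E.Δ : ℂ) ≠ 0 := Rat.cast_ne_zero.2 E.isUnit_Δ.ne_zero
  have c := congrArg (Rat.cast : ℚ → ℂ) E.c_relation
  push_cast at c
  obtain ⟨_, ⟨M, rfl⟩, h2, h3, -⟩ := exists_unif (-(E.c₄ : ℂ) / 48) (-(E.c₆ : ℂ) / 864) fun z =>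
    d (by linear_combination c / 1728 - 16 * z)
  have e2 : M.g₂ = (E.c₄ : ℂ) / 12 := h2.trans (by ring)
  have e3 : M.g₃ = (E.c₆ : ℂ) / 216 := h3.trans (by ring)
  obtain ⟨μ, H⟩ := (jh L.lattice M.lattice ⟨L, rfl⟩ ⟨M, rfl⟩).1 (e.trans (by
    rw [jL, g2_lat, g3_lat, e2, e3, show ((E.c₄ : ℂ) / 12) ^ 3 - 27 * ((E.c₆ : ℂ) / 216) ^ 2 = E.Δ by
      linear_combination -c / 1728, WeierstrassCurve.j, Units.val_inv_eq_inv_val,
      WeierstrassCurve.coe_Δ']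
    push_cast
    field_simp
    ring))
  exact ⟨M, α, e2, e3, n, (hom_end H α).1 k⟩

/-- **the reduction, from the word** -/
theorem HasCM.red (c : HasCM E) (m : Md E A B u r s t) :
    ∃ (K : Type) (_ : Field K) (_ : NumberField K) (j : K →+* Qb) (A' B' : ℤ)
      (Λ' : Submodule ℤ ℂ), Iq K ∧ 4 * A' ^ 3 + 27 * B' ^ 2 ≠ 0 ∧ g2 Λ' = -4 * A' ∧
        g3 Λ' = -4 * B' ∧ KL (JJ j) 1 Λ' ∧ {p : ℕ | p.Prime ∧ al A' B' p ≠ al A B p}.Finite := by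
  obtain ⟨L, α, h2, h3, n, k⟩ := c
  obtain ⟨Λ, H, e2, e3⟩ := lat_md m h2 h3
  exact Cm.red (H.isLat ⟨L, rfl⟩) e2 e3 (im_ne ⟨L, rfl⟩ n k) ((hom_end H α).1 k)

end Vale.Agent.P014X.Cm
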